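import Claimed.Agent.R252.S3e3.Contract

/-!
# ROW 252 (S0492), unit S3e3 (L3.5 part 3), file 3: THE EXIT IN THE SHAPE OF THE CONCLUSION OF `K3bHubStmt`      (sub-architect helper299, chief helper70)   -- KEEP
No sorry.   `U = E^{C2}`, `U3 = E^{C3}`, `m = k3e3M C2 C3 E = ⌈(C2 + C3 + 1) log₂ E⌉`.
* `k3e3_m_U3`, `k3e3_m_U` : the two fields `m_U3`, `m_U` of `Ok` for this `m`;   `k3e3_m_le` : `m ≤ (2 (C2 + C3) + 3) K` if `log E ≤ K`.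
* `k3e3_hub_plan` (level 1), `k3e3_hub_tab` (level 2): `∃ Y' a'`, `δ E ≤ a' ≤ δ E^C`, `WF`, `Geo / Big / Known` with slack `C K^C`, `Tmp (Q^C)`;  `C = 16 + 4 (C2 + C3)`.
  The STRICT loss `δ E ≤ a'` (needed by the consumer, helper10) uses `1 ≤ C2` (enlarge `U`: the hypotheses are monotone in `U`).
-/

set_option autoImplicit false

namespace Claimed.Agent.R252

open MeasureTheory
open scoped ENNReal BigOperators

noncomputable section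

variable {v : KbVer}

/-- the number of dyadic sizes -/
def k3e3M (C2 C3 E : ℝ) : ℕ := ⌈(C2 + C3 + 1) * Real.logb 2 E⌉₊

theorem k3e3_pow_M (C2 C3 E : ℝ) (hE : 1 ≤ E) : E ^ (C2 + C3 + 1) ≤ 2 ^ k3e3M C2 C3 E := by
  have hE0 : 0 < E := by linarith
  rw [← Real.rpow_natCast]
  calc E ^ (C2 + C3 + 1) = ((2 : ℝ) ^ Real.logb 2 E) ^ (C2 + C3 + 1) := by rw [Real.rpow_logb (by norm_num) (by norm_num) hE0]
    _ = (2 : ℝ) ^ ((C2 + C3 + 1) * Real.logb 2 E) := by rw [← Real.rpow_mul (by norm_num), mul_comm]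
    _ ≤ _ := Real.rpow_le_rpow_of_exponent_le (by norm_num) (Nat.le_ceil _)

theorem k3e3_m_U3 (C2 C3 E : ℝ) (hE : 4 ≤ E) (h2 : 0 ≤ C2) : 4 * E ^ C3 ≤ 2 ^ k3e3M C2 C3 E := by
  have hE0 : 0 < E := by linarith
  refine le_trans ?_ (k3e3_pow_M C2 C3 E (by linarith))
  calc 4 * E ^ C3 ≤ E * E ^ C3 := by gcongr
    _ = E ^ (C3 + 1) := by rw [Real.rpow_add hE0, Real.rpow_one]; ring
    _ ≤ _ := Real.rpow_le_rpow_of_exponent_le (by linarith) (by linarith)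

theorem k3e3_m_U (C2 C3 E : ℝ) (hE : 4 ≤ E) (h3 : 0 ≤ C3) : E ^ C2 < 2 ^ k3e3M C2 C3 E := by
  refine lt_of_lt_of_le ?_ (k3e3_pow_M C2 C3 E (by linarith))
  exact Real.rpow_lt_rpow_of_exponent_lt (by linarith) (by linarith)

theorem k3e3_m_le (C2 C3 E K : ℝ) (hE : 1 ≤ E) (h2 : 0 ≤ C2) (h3 : 0 ≤ C3) (hK : 1 ≤ K) (hlog : Real.log E ≤ K) : (k3e3M C2 C3 E : ℝ) ≤ (2 * (C2 + C3) + 3) * K := by
  have hl0 : 0 ≤ Real.log E := Real.log_nonneg hE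
  have hl2 : (1 / 2 : ℝ) < Real.log 2 := by
    have := Real.log_two_gt_d9
    linarith
  have hb : Real.logb 2 E ≤ 2 * K := by
    unfold Real.logb
    rw [div_le_iff₀ (by linarith)]
    nlinarith
  have hb0 : 0 ≤ Real.logb 2 E := Real.logb_nonneg (by norm_num) hE
  have hr : 0 ≤ (C2 + C3 + 1) * Real.logb 2 E := by positivity
  have h1 := (Nat.ceil_lt_add_one hr).le
  unfold k3e3M
  have h4 : (C2 + C3 + 1) * Real.logb 2 E ≤ (C2 + C3 + 1) * (2 * K) := by gcongr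
  nlinarith

/-- **the exit of level 1 in the shape of the hub** -/
theorem k3e3_hub_plan (C2 C3 : ℝ) (h2 : 1 ≤ C2) (h3 : 0 ≤ C3) : ∃ C : ℝ, 1 ≤ C ∧
    ∀ (P : KbPb v) (X : K3e3Plan P) (E Q : ℝ) (D : Type) (ℓ : P.Lab D), P.WF → X.Ok → X.U = E ^ C2 → X.U3 = E ^ C3 → X.m = k3e3M C2 C3 E →
      X.Y0.Known ℓ (X.K ^ 2) → X.Y0.Tmp Q → C * X.K ^ C ≤ E → Real.log E ≤ X.K → E ≤ Q →
    ∃ (Y' : KbSys P) (a' : ℝ), Y'.n = X.Y0.n ∧ X.δ * E ≤ a' ∧ a' ≤ X.δ * E ^ C ∧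
      Y'.WF ∧ Y'.Geo (C * X.K ^ C) a' ∧ Y'.Big (C * X.K ^ C) ∧ Y'.Known ℓ (C * X.K ^ C) ∧ Y'.Tmp (Q ^ C) := by
  refine ⟨16 + 4 * (C2 + C3), by linarith, ?_⟩
  intro P X E Q D ℓ hP hX hU hU3 hm hKn hT hCE hlog hEQ
  set C := 16 + 4 * (C2 + C3) with hC
  set K := X.K with hKdef
  have hK : 1 ≤ K := hX.K_ge
  have hK0 : 0 < K := by linarith
  have hδ := hX.δ_pos
  have hC16 : 16 ≤ C := by linarith
  -- powers of K
  have hKC1 : 1 ≤ K ^ C := Real.one_le_rpow hK (by linarith)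
  have hKp : ∀ n : ℕ, (n : ℝ) ≤ C → K ^ n ≤ K ^ C := by
    intro n hn
    rw [← Real.rpow_natCast]
    exact Real.rpow_le_rpow_of_exponent_le hK hn
  have hK1C : K ≤ K ^ C := by
    have := hKp 1 (by norm_num; linarith)
    simpa using this
  have hK3C : K ^ 3 ≤ K ^ C := hKp 3 (by norm_num; linarith)
  have hE16 : 16 ≤ E := by nlinarith
  have hE1 : 1 ≤ E := by linarith
  have hE0 : 0 < E := by linarith
  have hCE' : C ≤ E := by nlinarith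
  have hKE : K ≤ E := by nlinarith
  have hQ1 : 1 ≤ Q := by linarith
  have hQ0 : 0 < Q := by linarith
  have hmle : (X.m : ℝ) ≤ (2 * (C2 + C3) + 3) * K := by
    rw [hm]
    exact k3e3_m_le C2 C3 E K hE1 (by linarith) h3 hK hlog
  have hm0 : (0 : ℝ) ≤ X.m := Nat.cast_nonneg _
  -- slack comparisons
  have s16 : 16 * K ≤ C * K ^ C := by nlinarith
  have s4 : 4 * K ≤ C * K ^ C := by nlinarith
  have s2 : 2 * K ≤ C * K ^ C := by nlinarith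
  have s1 : K ≤ C * K ^ C := by nlinarith
  have sK2 : K ^ 2 ≤ C * K ^ C := by
    have := hKp 2 (by norm_num; linarith)
    nlinarith
  have sKn : 2 * X.m * K ^ 2 ≤ C * K ^ C := by
    have h5 : 2 * (X.m : ℝ) * K ^ 2 ≤ 2 * ((2 * (C2 + C3) + 3) * K) * K ^ 2 := by gcongr
    have h6 : 2 * ((2 * (C2 + C3) + 3) * K) * K ^ 2 = (4 * (C2 + C3) + 6) * K ^ 3 := by ring
    have h7 : (4 * (C2 + C3) + 6) * K ^ 3 ≤ C * K ^ C := by
      have : 4 * (C2 + C3) + 6 ≤ C := by linarith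
      have h0 : 0 ≤ K ^ 3 := by positivity
      calc (4 * (C2 + C3) + 6) * K ^ 3 ≤ C * K ^ 3 := by gcongr
        _ ≤ C * K ^ C := by gcongr
    linarith
  have sQ : Q ≤ Q ^ C := by
    have := Real.rpow_le_rpow_of_exponent_le hQ1 (show (1 : ℝ) ≤ C by linarith)
    simpa using this
  have sQm : 2 * X.m * Q ≤ Q ^ C := by
    have h5 : 2 * (X.m : ℝ) ≤ (4 * (C2 + C3) + 6) * K := by nlinarith
    have h6 : (4 * (C2 + C3) + 6) * K ≤ Q * Q := by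
      have : 4 * (C2 + C3) + 6 ≤ Q := by linarith
      have : K ≤ Q := by linarith
      have h0 : 0 ≤ 4 * (C2 + C3) + 6 := by linarith
      calc (4 * (C2 + C3) + 6) * K ≤ Q * K := by gcongr
        _ ≤ Q * Q := by gcongr
    have h7 : Q ^ (3 : ℕ) ≤ Q ^ C := by
      rw [← Real.rpow_natCast]
      exact Real.rpow_le_rpow_of_exponent_le hQ1 (by norm_num; linarith)
    calc 2 * X.m * Q ≤ (Q * Q) * Q := mul_le_mul_of_nonneg_right (h5.trans h6) hQ0.le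
      _ = Q ^ (3 : ℕ) := by ring
      _ ≤ _ := h7
  -- thickness
  have hUU3 : X.U * X.U3 = E ^ (C2 + C3) := by rw [hU, hU3, Real.rpow_add hE0]
  have hEle : E ≤ E ^ (C2 + C3) := by
    have := Real.rpow_le_rpow_of_exponent_le hE1 (show (1 : ℝ) ≤ C2 + C3 by linarith)
    simpa using this
  have hEpos : 0 < E ^ (C2 + C3) := by positivity
  have aL_lo : X.δ * E ≤ X.aL := by
    unfold K3e3Plan.aL
    have : E ≤ 4 * X.U * X.U3 := by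
      rw [mul_assoc, hUU3]
      linarith
    gcongr
  have aL_hi : X.aL ≤ X.δ * E ^ C := by
    unfold K3e3Plan.aL
    have : 4 * X.U * X.U3 ≤ E ^ C := by
      rw [mul_assoc, hUU3]
      calc 4 * E ^ (C2 + C3) ≤ E * E ^ (C2 + C3) := by gcongr; linarith
        _ = E ^ (C2 + C3 + 1) := by rw [Real.rpow_add hE0 (C2 + C3) 1, Real.rpow_one]; ring
        _ ≤ E ^ C := Real.rpow_le_rpow_of_exponent_le hE1 (by linarith)
    gcongr
  have eH : 16 * X.U ^ 2 * X.U3 ^ 2 = 16 * (E ^ (C2 + C3) * E ^ (C2 + C3)) := by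
    rw [← hUU3]
    ring
  have aH_lo : X.δ * E ≤ X.aH := by
    unfold K3e3Plan.aH
    have : E ≤ 16 * X.U ^ 2 * X.U3 ^ 2 := by
      rw [eH]
      have h1 : 1 ≤ E ^ (C2 + C3) := by linarith
      nlinarith
    gcongr
  have aH_hi : X.aH ≤ X.δ * E ^ C := by
    unfold K3e3Plan.aH
    have : 16 * X.U ^ 2 * X.U3 ^ 2 ≤ E ^ C := by
      rw [eH]
      calc 16 * (E ^ (C2 + C3) * E ^ (C2 + C3)) ≤ E * (E ^ (C2 + C3) * E ^ (C2 + C3)) := by gcongr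
        _ = E ^ (1 + ((C2 + C3) + (C2 + C3))) := by rw [Real.rpow_add hE0 1, Real.rpow_add hE0 (C2 + C3) (C2 + C3), Real.rpow_one]
        _ ≤ E ^ C := Real.rpow_le_rpow_of_exponent_le hE1 (by linarith)
    gcongr
  have aL0 : 0 ≤ X.aL := le_trans (by positivity) aL_lo
  have aH0 : 0 ≤ X.aH := le_trans (by positivity) aH_lo
  rcases k3e3_build X hP hX ℓ (K ^ 2) hKn with ⟨w, g, b, k⟩ | ⟨w, g, b, k⟩
  · exact ⟨X.sysL, X.aL, rfl, aL_lo, aL_hi, w, k2s_geo_mono _ hP g s16 aL0, k2s_big_mono _ b s4, k2s_known_mono _ k sKn, k2s_tmp_mono _ (k3e3_tmpL X hX Q hT) sQm⟩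
  · exact ⟨X.sysH, X.aH, rfl, aH_lo, aH_hi, w, k2s_geo_mono _ hP g s1 aH0, k2s_big_mono _ b s2, k2s_known_mono _ k sK2, k2s_tmp_mono _ (k3e3_tmpH X Q hT) sQ⟩

/-- **the exit of part 3 in the shape of the hub** -/
theorem k3e3_hub_tab (C2 C3 : ℝ) (h2 : 1 ≤ C2) (h3 : 0 ≤ C3) : ∃ C : ℝ, 1 ≤ C ∧
    ∀ (P : KbPb v) (Y : KbSys P) (X : K3e3Tab Y) (E Q : ℝ) (D : Type) (ℓ : P.Lab D), P.WF → Y.WF → X.Ok → X.U = E ^ C2 → X.U3 = E ^ C3 → X.m = k3e3M C2 C3 E →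
      Y.Known ℓ X.K → X.sys0.Tmp Q → C * X.K ^ C ≤ E → Real.log E ≤ X.K → E ≤ Q →
    ∃ (Y' : KbSys P) (a' : ℝ), Y'.n = X.n1 ∧ X.δ * E ≤ a' ∧ a' ≤ X.δ * E ^ C ∧
      Y'.WF ∧ Y'.Geo (C * X.K ^ C) a' ∧ Y'.Big (C * X.K ^ C) ∧ Y'.Known ℓ (C * X.K ^ C) ∧ Y'.Tmp (Q ^ C) := by
  obtain ⟨C, hC, h⟩ := k3e3_hub_plan (v := v) C2 C3 h2 h3
  refine ⟨C, hC, ?_⟩
  intro P Y X E Q D ℓ hP hY hX hU hU3 hm hKn hT hCE hlog hEQ
  exact h P X.plan E Q D ℓ hP (k3e3_tab_ok X hP hY hX) hU hU3 hm (k3e3_tab_known X ℓ hKn hX) hT hCE hlog hEQ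

end

end Claimed.Agent.R252
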