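import Claimed.Agent.R252.S3e3.Defs

/-!
# ROW 252 (S0492), unit S3e3 (03-comparison.tex l.1561-1776, L3.5 terminal time extension, part 3), file 2: CONTRACT      (sub-architect helper299, chief helper70)   -- KEEP

PAPER-FREE.  ALL LEAVES `L-252-S3e3-*` ARE PROVED: this file has no open hole.  Read the header of `S3e3/Defs.lean` first (all objects are explicit definitions there).
EXITS: `k3e3_build` (level 1: a plan `X : K3e3Plan P` with `X.Ok` gives a known atlas on the same blocks, `X.sysL` at thickness `X.aL = 4 U U3 δ` or `X.sysH` at thickness `X.aH = 16 U² U3² δ`),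
`k3e3_exit` (level 2: the same for the plan of a frozen table `X : K3e3Tab Y`).  Both are proved here from the leaves.
TOOLS for the chief: `k3e3_freeze` (one parameter per index, mass at least the average), `k3e3_mass_of_suc` (the frozen successes bound the mass of the preliminary atlas of a table from below),
`k3e3_ret_*` (equations in the coordinates of a frame, `K3bEq`, as tests in the original coordinates), `k3e3_tmpL/H`.
Useful API: `S2s/Api.lean` (`k2s_mu_rect`, `k2s_mu_le`, `k2s_kbI_disj`, `k2s_Z_le`, `k2s_vol_I`, ...), `Remez/Misc.lean` (`rmz_affine_good_time`).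
-/

set_option autoImplicit false

namespace Claimed.Agent.R252

open MeasureTheory
open scoped ENNReal BigOperators

noncomputable section

variable {v : KbVer}

/-! ## 1. Quadratic tests -/

/-- **LEAF L-252-S3e3-Q** (this and the next nine statements).  `obtain ⟨Q, hQ⟩ := hT; simp only [kbDww, hQ, KbQuad.ev]; ring`-type proofs. -/
theorem k3e3_dww_const {T : KbTest v} (hT : KbIsQuad T) (t : ℝ) (y : KbB v) (w : ℝ) : kbDww T t y w = kbDww T 0 0 0 := by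
  obtain ⟨Q, hQ⟩ := hT
  simp only [kbDww, hQ, KbQuad.ev]
  simp only [dotProduct_zero, Matrix.mulVec_zero]
  ring

/-- `∂_w` of a quadratic is (affine, hence) quadratic: coefficients `c0 := cw`, `ct := ctw`, `cy := cyw`, `cw := 2 cww`, the others `0`. -/
theorem k3e3_dw_quad {T : KbTest v} (hT : KbIsQuad T) : KbIsQuad (kbDw T) := by
  obtain ⟨Q, hQ⟩ := hT
  refine ⟨⟨Q.cw, Q.ctw, Q.cyw, 2 * Q.cww, 0, 0, 0, 0, 0, 0⟩, fun t y w => ?_⟩
  simp only [kbDw, hQ, KbQuad.ev]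
  simp only [zero_dotProduct, Matrix.zero_mulVec, dotProduct_zero]
  ring

theorem k3e3_dw_dw {T : KbTest v} (hT : KbIsQuad T) (t : ℝ) (y : KbB v) (w : ℝ) : kbDw (kbDw T) t y w = kbDww T 0 0 0 := by
  obtain ⟨Q, hQ⟩ := hT
  simp only [kbDw, kbDww, hQ, KbQuad.ev]
  simp only [dotProduct_zero, Matrix.mulVec_zero]
  ring

theorem k3e3_dww_dw {T : KbTest v} (hT : KbIsQuad T) (t : ℝ) (y : KbB v) (w : ℝ) : kbDww (kbDw T) t y w = 0 := by
  obtain ⟨Q, hQ⟩ := hT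
  simp only [kbDw, kbDww, hQ, KbQuad.ev]
  ring

/-- scaling (`a = 1/ρ`, `a = B / cur`) -/
theorem k3e3_smul_quad {T : KbTest v} (hT : KbIsQuad T) (a : ℝ) : KbIsQuad fun t y w => a * T t y w := by
  obtain ⟨Q, hQ⟩ := hT
  refine ⟨⟨a * Q.c0, a * Q.ct, a • Q.cy, a * Q.cw, a * Q.ctt, a • Q.cty, a * Q.ctw, a • Q.cyy, a • Q.cyw, a * Q.cww⟩, fun t y w => ?_⟩
  simp only [hQ, KbQuad.ev, smul_dotProduct, Matrix.smul_mulVec, dotProduct_smul, smul_eq_mul]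
  ring

/-- version 1: derivative one, no curvature -/
theorem k3e3_v1 {T : KbTest v} (hT : KbAdm T) (hv : v = KbVer.one) (t : ℝ) (y : KbB v) (w : ℝ) : kbDw T t y w = 1 ∧ kbDww T t y w = 0 := by
  have h := hT.2 hv
  constructor
  · unfold kbDw
    rw [h t y (w + 1), h t y (w - 1)]
    ring
  · unfold kbDww
    rw [h t y (w + 1), h t y (w - 1), h t y w]
    ring

/-- the harmless test -/
theorem k3e3_lin_adm (B : ℝ) (h : v = KbVer.one → B = 1) : KbAdm (v := v) fun _ _ w => B * w := by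
  refine ⟨⟨⟨0, 0, 0, B, 0, 0, 0, 0, 0, 0⟩, fun t y w => ?_⟩, fun hv t y w => ?_⟩
  · simp only [KbQuad.ev, zero_dotProduct, Matrix.zero_mulVec, dotProduct_zero]
    ring
  · rw [h hv]
    ring

/-- the derivative of an admissible test is AFFINE along a trajectory.  Version 2 (`cases v`): `y (t)`, `w (t)` are affine (`Fin.sum_univ_two`), `∂_w T = cw + ctw t + cyw · y + 2 cww w`.   Version 1: `k3e3_v1`, `α = 1`, `β = 0`. -/
theorem k3e3_der_affine {T : KbTest v} (hT : KbAdm T) (l : KbTj v) : ∃ α β : ℝ, ∀ t, kbX (kbDw T) l t = α + β * t := by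
  cases v with
  | one =>
    refine ⟨1, 0, fun t => ?_⟩
    unfold kbX
    rw [(k3e3_v1 hT rfl _ _ _).1]
    ring
  | two =>
    obtain ⟨Q, hQ⟩ := hT.1
    refine ⟨Q.cw + Q.cyw ⬝ᵥ l.1 + 2 * Q.cww * l.2.2 (0 : Fin 2), Q.ctw + Q.cyw ⬝ᵥ l.2.1 + 2 * Q.cww * l.2.2 (1 : Fin 2), fun t => ?_⟩
    have hw : kbW l t = l.2.2 (0 : Fin 2) + l.2.2 (1 : Fin 2) * t := by
      unfold kbW
      have := Fin.sum_univ_two fun i : Fin 2 => l.2.2 i * t ^ (i : ℕ)
      refine this.trans ?_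
      simp
    simp only [kbX, kbDw, hQ, KbQuad.ev, hw, kbY, dotProduct_add, dotProduct_smul, smul_eq_mul]
    ring

/-- a quadratic test along trajectories is continuous in (coefficients, time) -/
theorem k3e3_X_cont {T : KbTest v} (hT : KbIsQuad T) : Continuous fun p : KbTj v × ℝ => kbX T p.1 p.2 := by
  obtain ⟨Q, hQ⟩ := hT
  have hy : Continuous fun p : KbTj v × ℝ => kbY p.1 p.2 := by
    unfold kbY
    fun_prop
  have hw : Continuous fun p : KbTj v × ℝ => kbW p.1 p.2 := by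
    unfold kbW
    refine continuous_finsetSum _ fun i _ => ?_
    have : Continuous fun p : KbTj v × ℝ => p.1.2.2 i := (continuous_apply i).comp (by fun_prop)
    exact this.mul (by fun_prop)
  have hd : ∀ a : KbB v, Continuous fun p : KbTj v × ℝ => a ⬝ᵥ kbY p.1 p.2 := fun a => by
    unfold dotProduct
    refine continuous_finsetSum _ fun i _ => continuous_const.mul ((continuous_apply i).comp hy)
  have hq : Continuous fun p : KbTj v × ℝ => kbY p.1 p.2 ⬝ᵥ Q.cyy.mulVec (kbY p.1 p.2) := by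
    unfold dotProduct Matrix.mulVec dotProduct
    refine continuous_finsetSum _ fun i _ => ((continuous_apply i).comp hy).mul ?_
    exact continuous_finsetSum _ fun k _ => continuous_const.mul ((continuous_apply k).comp hy)
  simp only [kbX, hQ, KbQuad.ev]
  have h2 : Continuous fun p : KbTj v × ℝ => p.2 := continuous_snd
  exact (((((((((continuous_const.add (continuous_const.mul h2)).add (hd _)).add (continuous_const.mul hw)).add (continuous_const.mul (h2.pow 2))).add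
    (h2.mul (hd _))).add ((continuous_const.mul h2).mul hw)).add hq).add (hw.mul (hd _))).add (continuous_const.mul (hw.pow 2)))

/-- an affine function on a block: the maximum of the absolute value is at the end points (convexity: `t = (1-s) a + s b`) -/
theorem k3e3_affine_max (α β a b t : ℝ) (ht : t ∈ Set.Icc a b) : |α + β * t| ≤ max |α + β * a| |α + β * b| := by
  obtain ⟨h1, h2⟩ := ht
  rcases le_total 0 β with hβ | hβ
  · rw [abs_le]
    constructor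
    · have : -|α + β * a| ≤ α + β * a := neg_abs_le _
      have h3 : |α + β * a| ≤ max |α + β * a| |α + β * b| := le_max_left _ _
      nlinarith
    · have : α + β * b ≤ |α + β * b| := le_abs_self _
      have h3 : |α + β * b| ≤ max |α + β * a| |α + β * b| := le_max_right _ _
      nlinarith
  · rw [abs_le]
    constructor
    · have : -|α + β * b| ≤ α + β * b := neg_abs_le _
      have h3 : |α + β * b| ≤ max |α + β * a| |α + β * b| := le_max_right _ _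
      nlinarith
    · have : α + β * a ≤ |α + β * a| := le_abs_self _
      have h3 : |α + β * a| ≤ max |α + β * a| |α + β * b| := le_max_left _ _
      nlinarith

/-! ## 2. Level 1: the assignments of a plan -/

theorem k3e3_forall_meas {Λ : Type*} [MeasurableSpace Λ] {f : KbTj v × ℝ → ℝ} (hf : Continuous f) {co : Λ → KbTj v} (hco : Measurable co) (I : Set ℝ) (C : ℝ) :
    MeasurableSet {l | ∀ t ∈ I, f (co l, t) ≤ C} := by
  have h1 : IsClosed {p : KbTj v | ∀ t ∈ I, f (p, t) ≤ C} := by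
    have : {p : KbTj v | ∀ t ∈ I, f (p, t) ≤ C} = ⋂ t ∈ I, {p | f (p, t) ≤ C} := by
      ext p
      simp
    rw [this]
    exact isClosed_biInter fun t _ => isClosed_le (hf.comp (by fun_prop)) continuous_const
  exact hco h1.measurableSet

variable {P : KbPb v}

theorem k3e3_X_meas (hP : P.WF) {T : KbTest v} (hT : KbIsQuad T) (γ : P.W) : Measurable fun x : P.Lam × ℝ => kbX T (P.co γ x.1) x.2 :=
  (k3e3_X_cont hT).measurable.comp (((hP.co_meas γ).comp measurable_fst).prodMk measurable_snd)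

theorem k3e3_X_meas_t (hP : P.WF) {T : KbTest v} (hT : KbIsQuad T) (γ : P.W) (t : ℝ) : Measurable fun l : P.Lam => kbX T (P.co γ l) t :=
  (k3e3_X_cont hT).measurable.comp ((hP.co_meas γ).prodMk measurable_const)

section plan

variable (X : K3e3Plan P)

theorem k3e3_asgL_meas (hP : P.WF) (hX : X.Ok) (ck : X.Y0.C × Fin (2 * X.m)) : MeasurableSet (X.asgL ck) := by
  have hq := (hX.wf.adm ck.1).1
  have hM : Measurable fun l => X.Mx ck.1 l := by
    unfold K3e3Plan.Mx K3e3Plan.der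
    exact (k3e3_X_meas_t hP (k3e3_dw_quad hq) _ _).abs.max (k3e3_X_meas_t hP (k3e3_dw_quad hq) _ _).abs
  have e : X.asgL ck = X.Y0.A ck.1 ∩ ({_l | X.good ck} ∩ ({l | X.B ck.1 * X.rho ck.2 ≤ X.Mx ck.1 l} ∩ {l | X.Mx ck.1 l < 2 * (X.B ck.1 * X.rho ck.2)})) := rfl
  rw [e]
  exact (hX.wf.A_meas _).inter ((MeasurableSet.const _).inter ((measurableSet_le measurable_const hM).inter (measurableSet_lt hM measurable_const)))

/-- the normalised tests are admissible.  `good`: `T / ρ = (1/ρ) * T` (`k3e3_smul_quad`), in version 1 `ρ = 1`; not `good`: `k3e3_lin_adm`, `hP.v1`. -/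
theorem k3e3_tstL_adm (hP : P.WF) (hX : X.Ok) (ck : X.Y0.C × Fin (2 * X.m)) : KbAdm (X.tstL ck) := by
  unfold K3e3Plan.tstL
  by_cases hg : X.good ck
  · rw [if_pos hg]
    refine ⟨?_, fun hv t y w => ?_⟩
    · have := k3e3_smul_quad (hX.wf.adm ck.1).1 (1 / X.rho ck.2)
      obtain ⟨Q, hQ⟩ := this
      exact ⟨Q, fun t y w => by rw [← hQ]; ring⟩
    · simp only [hg.2.2 hv, div_one]
      exact (hX.wf.adm ck.1).2 hv t y w
  · rw [if_neg hg]
    exact k3e3_lin_adm _ fun hv => (hP.v1 hv _).1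

theorem k3e3_slL_meas (hP : P.WF) (hX : X.Ok) (ck : X.Y0.C × Fin (2 * X.m)) : MeasurableSet (X.slL ck) := by
  have e : X.slL ck = X.Y0.S ck.1 ∩ ((Prod.fst ⁻¹' X.asgL ck) ∩ {x | X.kap * X.B ck.1 ≤ |kbX (kbDw (X.tstL ck)) (P.co (X.Y0.wd ck.1) x.1) x.2|}) := rfl
  rw [e]
  exact (hX.wf.S_meas _).inter ((measurable_fst (k3e3_asgL_meas X hP hX ck)).inter
    (measurableSet_le measurable_const (k3e3_X_meas hP (k3e3_dw_quad (k3e3_tstL_adm X hP hX ck).1) _).abs))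

theorem k3e3_lostL_meas (hP : P.WF) (hX : X.Ok) (ck : X.Y0.C × Fin (2 * X.m)) : MeasurableSet (X.lostL ck) := by
  have e : X.lostL ck = (Prod.fst ⁻¹' X.asgL ck) ∩ ((Prod.snd ⁻¹' X.Y0.I ck.1) ∩ {x | |kbX (kbDw (X.tstL ck)) (P.co (X.Y0.wd ck.1) x.1) x.2| < X.kap * X.B ck.1}) := rfl
  rw [e]
  exact (measurable_fst (k3e3_asgL_meas X hP hX ck)).inter ((measurable_snd measurableSet_Ico).inter
    (measurableSet_lt (k3e3_X_meas hP (k3e3_dw_quad (k3e3_tstL_adm X hP hX ck).1) _).abs measurable_const))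

theorem k3e3_rho_pos (k : Fin (2 * X.m)) : 0 < X.rho k := by
  unfold K3e3Plan.rho
  positivity

theorem k3e3_rho_lt {k k' : Fin (2 * X.m)} (h : k < k') : 2 * X.rho k ≤ X.rho k' := by
  unfold K3e3Plan.rho
  have h1 : (((k : ℕ) : ℤ) - (X.m : ℤ)) + 1 ≤ ((k' : ℕ) : ℤ) - (X.m : ℤ) := by
    have : (k : ℕ) < (k' : ℕ) := h
    omega
  calc 2 * (2 : ℝ) ^ (((k : ℕ) : ℤ) - (X.m : ℤ)) = (2 : ℝ) ^ ((((k : ℕ) : ℤ) - (X.m : ℤ)) + 1) := by
        rw [zpow_add_one₀ (by norm_num)]; ring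
    _ ≤ _ := zpow_le_zpow_right₀ (by norm_num) h1

/-- `c ≠ c'`: `Y0.WF`.   `c = c'`, `k < k'`: `ρ_{k'} ≥ 2 ρ_k`, so `M ≥ B ρ_{k'} ≥ 2 B ρ_k > M`. -/
theorem k3e3_asgL_disj (hP : P.WF) (hX : X.Ok) {ck ck' : X.Y0.C × Fin (2 * X.m)} (h : ck ≠ ck') (hw : X.Y0.wd ck.1 = X.Y0.wd ck'.1) (hi : X.Y0.iv ck.1 = X.Y0.iv ck'.1) :
    Disjoint (X.asgL ck) (X.asgL ck') := by
  obtain ⟨c, k⟩ := ck
  obtain ⟨c', k'⟩ := ck'
  by_cases hc : c = c'
  · subst hc
    have hk : k ≠ k' := fun e => h (by rw [e])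
    have hB : 0 < X.B c := hP.B_pos _
    rw [Set.disjoint_left]
    rintro l ⟨-, -, h1, h2⟩ ⟨-, -, h1', h2'⟩
    simp only at h1 h2 h1' h2'
    rcases lt_or_gt_of_ne hk with hlt | hlt
    · have := k3e3_rho_lt X hlt
      nlinarith
    · have := k3e3_rho_lt X hlt
      nlinarith
  · exact (hX.wf.A_disj c c' hc hw hi).mono (fun l hl => hl.1) (fun l hl => hl.1)

/-- in version 1 every label has low curvature (`k3e3_v1`: `cur = 0`) ; high: `B * ∂_w T / cur = (B / cur) * ∂_w T`, `k3e3_dw_quad`, `k3e3_smul_quad`. -/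
theorem k3e3_tstH_adm (hP : P.WF) (hX : X.Ok) (c : X.Y0.C) : KbAdm (X.tstH c) := by
  unfold K3e3Plan.tstH
  by_cases hl : X.low c
  · rw [if_pos hl]
    exact k3e3_lin_adm _ fun hv => (hP.v1 hv _).1
  · rw [if_neg hl]
    refine ⟨?_, fun hv t y w => ?_⟩
    · obtain ⟨Q, hQ⟩ := k3e3_smul_quad (k3e3_dw_quad (hX.wf.adm c).1) (X.B c / X.cur c)
      exact ⟨Q, fun t y w => by rw [← hQ]; ring⟩
    · exfalso
      apply hl
      unfold K3e3Plan.low K3e3Plan.cur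
      rw [(k3e3_v1 (hX.wf.adm c) hv 0 0 0).2]
      simp only [abs_zero, zero_mul]
      positivity

theorem k3e3_wfL (hP : P.WF) (hX : X.Ok) : X.sysL.WF := by
  exact {
    iv_lt := fun ck => hX.wf.iv_lt ck.1
    A_meas := k3e3_asgL_meas X hP hX
    A_sub := fun ck _ hl => hX.wf.A_sub ck.1 hl.1
    A_disj := fun _ _ h hw hi => k3e3_asgL_disj X hP hX h hw hi
    S_meas := k3e3_slL_meas X hP hX
    S_sub := fun ck _ hx => ⟨(hX.wf.S_sub ck.1 hx.1).1, hx.2.1, (hX.wf.S_sub ck.1 hx.1).2.2⟩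
    inv := fun ck => hX.wf.inv ck.1
    adm := k3e3_tstL_adm X hP hX }

theorem k3e3_wfH (hP : P.WF) (hX : X.Ok) : X.sysH.WF := by
  exact {
    iv_lt := hX.wf.iv_lt
    A_meas := fun c => (hX.wf.A_meas c).inter (MeasurableSet.const _)
    A_sub := fun c _ hl => hX.wf.A_sub c hl.1
    A_disj := fun c c' h hw hi => (hX.wf.A_disj c c' h hw hi).mono (fun _ hl => hl.1) (fun _ hl => hl.1)
    S_meas := fun c => (hX.wf.S_meas c).inter (MeasurableSet.const _)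
    S_sub := fun c _ hx => ⟨(hX.wf.S_sub c hx.1).1, ⟨(hX.wf.S_sub c hx.1).2.1, hx.2⟩, (hX.wf.S_sub c hx.1).2.2⟩
    inv := hX.wf.inv
    adm := k3e3_tstH_adm X hP hX }

/-! ## 3. Level 1: the chart bounds -/

theorem k3e3_tstL_good {ck : X.Y0.C × Fin (2 * X.m)} (hg : X.good ck) : X.tstL ck = fun t y w => (X.Y0.ch ck.1).T t y w / X.rho ck.2 := if_pos hg

theorem k3e3_tstL_bad {ck : X.Y0.C × Fin (2 * X.m)} (hg : ¬ X.good ck) : X.tstL ck = fun _ _ w => X.B ck.1 * w := if_neg hg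

theorem k3e3_tstL_dw {ck : X.Y0.C × Fin (2 * X.m)} (hg : X.good ck) (l : P.Lam) (t : ℝ) :
    kbX (kbDw (X.tstL ck)) (P.co (X.Y0.wd ck.1) l) t = X.der ck.1 l t / X.rho ck.2 := by
  rw [k3e3_tstL_good X hg]
  unfold K3e3Plan.der kbX kbDw
  ring

theorem k3e3_I_sub (c : X.Y0.C) : X.Y0.I c ⊆ Set.Icc (X.Y0.tc c) (X.tr c) := fun _ ht => ⟨ht.1, ht.2.le⟩

theorem k3e3_der_le_Mx (hX : X.Ok) (c : X.Y0.C) (l : P.Lam) (t : ℝ) (ht : t ∈ Set.Icc (X.Y0.tc c) (X.tr c)) : |X.der c l t| ≤ X.Mx c l := by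
  obtain ⟨α, β, h⟩ := k3e3_der_affine (hX.wf.adm c) (P.co (X.Y0.wd c) l)
  unfold K3e3Plan.Mx K3e3Plan.der
  rw [h, h, h]
  exact k3e3_affine_max α β _ _ t ht

/-- Only `good` labels have trajectories; for them `T = \hat P / ρ`, `1/ρ ≤ 4 U3`.
`val`: `U δ / ρ ≤ aL`.  `dw`: `|der t| ≤ Mx < 2 B ρ`.  `dw_low`: definition of `slL`, `1/κ = 16 K`.  `dww`: `|cur| / ρ * aL ≤ |cur| δ Tt ≤ B²`; labels which are not `good`: `kbDww (B w) = 0`. -/
theorem k3e3_geoL (hP : P.WF) (hX : X.Ok) : X.sysL.Geo (16 * X.K) X.aL := by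
  have hK := hX.K_ge
  have hU := hX.U_ge
  have hU3 := hX.U3_ge
  have hδ := hX.δ_pos
  have haL : 0 < X.aL := by
    unfold K3e3Plan.aL
    positivity
  refine ⟨fun ck => ?_, fun ck l hl t ht => ?_, fun ck l hl t ht => ?_, fun ck l hl t ht => ?_, fun ck x hx => ?_, fun ck t y w => ?_⟩
  · show kbMn (X.Y0.ch ck.1).D ≤ X.Y0.q * (16 * X.K)
    have := hX.size ck.1
    have := k2s_q_pos X.Y0
    nlinarith
  · have : ‖(X.Y0.ch ck.1).Di.mulVec (kbY (P.co (X.Y0.wd ck.1) l) t - (X.Y0.ch ck.1).yc t)‖ ≤ X.K := hX.box ck.1 l hl.1 t ht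
    exact this.trans (by linarith)
  · have hg : X.good ck := hl.2.1
    have hρ := k3e3_rho_pos X ck.2
    show |kbX (X.tstL ck) (P.co (X.Y0.wd ck.1) l) t| ≤ 16 * X.K * X.aL
    have e : kbX (X.tstL ck) (P.co (X.Y0.wd ck.1) l) t = X.val ck.1 l t / X.rho ck.2 := by
      rw [k3e3_tstL_good X hg]
      rfl
    have h1 : |X.val ck.1 l t| ≤ X.U * X.δ := hX.val ck.1 l hl.1 t ht
    rw [e, abs_div, abs_of_pos hρ, div_le_iff₀ hρ]
    have h2 := hg.2.1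
    have h3 : X.U * X.δ ≤ X.aL * X.rho ck.2 := by
      unfold K3e3Plan.aL
      have : 0 < X.U * X.δ := by positivity
      nlinarith
    have h4 : X.aL * X.rho ck.2 ≤ 16 * X.K * X.aL * X.rho ck.2 := by
      have : 0 < X.aL * X.rho ck.2 := by positivity
      nlinarith
    linarith
  · have hg : X.good ck := hl.2.1
    have hρ := k3e3_rho_pos X ck.2
    have hB : 0 < X.B ck.1 := hP.B_pos _
    show |kbX (kbDw (X.tstL ck)) (P.co (X.Y0.wd ck.1) l) t| ≤ 16 * X.K * X.B ck.1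
    rw [k3e3_tstL_dw X hg, abs_div, abs_of_pos hρ, div_le_iff₀ hρ]
    have h1 := k3e3_der_le_Mx X hX ck.1 l t (k3e3_I_sub X ck.1 ht)
    have h2 : X.Mx ck.1 l < 2 * (X.B ck.1 * X.rho ck.2) := hl.2.2.2
    have : 0 < X.B ck.1 * X.rho ck.2 := by positivity
    nlinarith
  · have h1 : X.kap * X.B ck.1 ≤ |kbX (kbDw (X.tstL ck)) (P.co (X.Y0.wd ck.1) x.1) x.2| := hx.2.2
    show X.B ck.1 ≤ 16 * X.K * |kbX (kbDw (X.tstL ck)) (P.co (X.Y0.wd ck.1) x.1) x.2|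
    have e : X.B ck.1 = 16 * X.K * (X.kap * X.B ck.1) := by
      unfold K3e3Plan.kap
      field_simp
    calc X.B ck.1 = 16 * X.K * (X.kap * X.B ck.1) := e
      _ ≤ _ := by gcongr
  · have hB : 0 < X.B ck.1 := hP.B_pos _
    show |kbDww (X.tstL ck) t y w| * X.aL ≤ 16 * X.K * X.B ck.1 ^ 2
    have hB2 : X.B ck.1 ^ 2 ≤ 16 * X.K * X.B ck.1 ^ 2 := by
      have : 0 < X.B ck.1 ^ 2 := by positivity
      nlinarith
    by_cases hg : X.good ck
    · have hρ := k3e3_rho_pos X ck.2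
      have e : kbDww (X.tstL ck) t y w = X.cur ck.1 / X.rho ck.2 := by
        unfold K3e3Plan.cur
        rw [← k3e3_dww_const (hX.wf.adm ck.1).1 t y w, k3e3_tstL_good X hg]
        unfold kbDww
        ring
      rw [e, abs_div, abs_of_pos hρ, div_mul_eq_mul_div, div_le_iff₀ hρ]
      have h1 : |X.cur ck.1| * (X.δ * X.Tt) ≤ X.B ck.1 ^ 2 := hg.1
      have h2 := hg.2.1
      have h3 : |X.cur ck.1| * X.aL ≤ |X.cur ck.1| * (X.δ * X.Tt) * X.rho ck.2 := by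
        have e2 : X.δ * X.Tt = X.aL * (4 * X.U3) := by
          unfold K3e3Plan.aL K3e3Plan.Tt
          ring
        rw [e2]
        have : 0 ≤ |X.cur ck.1| * X.aL := by positivity
        nlinarith
      have h4 : |X.cur ck.1| * (X.δ * X.Tt) * X.rho ck.2 ≤ X.B ck.1 ^ 2 * X.rho ck.2 := by gcongr
      have h5 : X.B ck.1 ^ 2 * X.rho ck.2 ≤ 16 * X.K * X.B ck.1 ^ 2 * X.rho ck.2 := by gcongr
      linarith
    · have e : kbDww (X.tstL ck) t y w = 0 := by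
        rw [k3e3_tstL_bad X hg]
        unfold kbDww
        ring
      rw [e, abs_zero, zero_mul]
      positivity

theorem k3e3_dw_scale (S : KbTest v) (a b t : ℝ) (y : KbB v) (w : ℝ) : kbDw (fun t y w => a * S t y w / b) t y w = a * kbDw S t y w / b := by
  unfold kbDw
  ring

theorem k3e3_dww_scale (S : KbTest v) (a b t : ℝ) (y : KbB v) (w : ℝ) : kbDww (fun t y w => a * S t y w / b) t y w = a * kbDww S t y w / b := by
  unfold kbDww
  ring

/-- **LEAF L-252-S3e3-GEOH**.  High labels: `B² < |cur| δ Tt`, so `cur ≠ 0` and `|T| = B |der| / |cur| ≤ U B² / |cur| < U δ Tt = aH`; `∂_w T = B` (`k3e3_dw_dw`), `∂_ww T = 0` (`k3e3_dww_dw`). -/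
theorem k3e3_geoH (hP : P.WF) (hX : X.Ok) : X.sysH.Geo X.K X.aH := by
  have hK := hX.K_ge
  have hU := hX.U_ge
  have hU3 := hX.U3_ge
  have hδ := hX.δ_pos
  have haH : 0 < X.aH := by
    unfold K3e3Plan.aH
    positivity
  have hdw : ∀ c, ¬ X.low c → ∀ t y w, kbDw (X.tstH c) t y w = X.B c := by
    intro c hl t y w
    have hB : 0 < X.B c := hP.B_pos _
    have hc : X.cur c ≠ 0 := by
      intro h0
      apply hl
      unfold K3e3Plan.low
      rw [h0, abs_zero, zero_mul]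
      positivity
    have e : kbDw (X.tstH c) t y w = X.B c * kbDw (kbDw (X.Y0.ch c).T) t y w / X.cur c := by
      unfold K3e3Plan.tstH
      rw [if_neg hl]
      exact k3e3_dw_scale _ _ _ _ _ _
    rw [e, k3e3_dw_dw (hX.wf.adm c).1]
    unfold K3e3Plan.cur at hc ⊢
    field_simp
  refine ⟨fun c => hX.size c, fun c l hl t ht => hX.box c l hl.1 t ht, fun c l hl t ht => ?_, fun c l hl t ht => ?_, fun c x hx => ?_, fun c t y w => ?_⟩
  · have hB : 0 < X.B c := hP.B_pos _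
    have hl2 : ¬ X.low c := hl.2
    have h1 : X.B c ^ 2 < |X.cur c| * (X.δ * X.Tt) := not_le.1 hl2
    have hc : 0 < |X.cur c| := by
      by_contra h0
      have : |X.cur c| = 0 := le_antisymm (not_lt.1 h0) (abs_nonneg _)
      rw [this, zero_mul] at h1
      nlinarith [sq_nonneg (X.B c)]
    show |kbX (X.tstH c) (P.co (X.Y0.wd c) l) t| ≤ X.K * X.aH
    have e : kbX (X.tstH c) (P.co (X.Y0.wd c) l) t = X.B c * X.der c l t / X.cur c := by
      unfold K3e3Plan.tstH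
      rw [if_neg hl2]
      rfl
    have h2 : |X.der c l t| ≤ X.U * X.B c := hX.der c l hl.1 t ht
    rw [e, abs_div, abs_mul, abs_of_pos hB, div_le_iff₀ hc]
    have e2 : X.aH = X.U * (X.δ * X.Tt) := by
      unfold K3e3Plan.aH K3e3Plan.Tt
      ring
    have h3 : X.B c * |X.der c l t| ≤ X.U * X.B c ^ 2 := by nlinarith
    have h4 : X.U * X.B c ^ 2 ≤ X.aH * |X.cur c| := by
      rw [e2]
      nlinarith
    have h5 : X.aH * |X.cur c| ≤ X.K * X.aH * |X.cur c| := by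
      have : 0 < X.aH * |X.cur c| := by positivity
      nlinarith
    linarith
  · have hB : 0 < X.B c := hP.B_pos _
    show |kbX (kbDw (X.tstH c)) (P.co (X.Y0.wd c) l) t| ≤ X.K * X.B c
    unfold kbX
    rw [hdw c hl.2, abs_of_pos hB]
    nlinarith
  · have hB : 0 < X.B c := hP.B_pos _
    show X.B c ≤ X.K * |kbX (kbDw (X.tstH c)) (P.co (X.Y0.wd c) x.1) x.2|
    unfold kbX
    rw [hdw c hx.2, abs_of_pos hB]
    nlinarith
  · have hB : 0 < X.B c := hP.B_pos _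
    show |kbDww (X.tstH c) t y w| * X.aH ≤ X.K * X.B c ^ 2
    have e : kbDww (X.tstH c) t y w = 0 := by
      by_cases hl : X.low c
      · unfold K3e3Plan.tstH
        rw [if_pos hl]
        unfold kbDww
        ring
      · have e1 : kbDww (X.tstH c) t y w = X.B c * kbDww (kbDw (X.Y0.ch c).T) t y w / X.cur c := by
          unfold K3e3Plan.tstH
          rw [if_neg hl]
          exact k3e3_dww_scale _ _ _ _ _ _
        rw [e1, k3e3_dww_dw (hX.wf.adm c).1]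
        simp
    rw [e, abs_zero, zero_mul]
    positivity

/-! ## 4. Level 1: the labels are known -/

/-- **LEAF L-252-S3e3-KNOWN** (this, the next statement and `k3e3_tab_known`).  With the list function `Lst` of `Y0` : `Lst' γ d o := (Lst γ d o) ×ˢ univ`. -/
theorem k3e3_knownL {D : Type} (ℓ : P.Lab D) (Kn : ℝ) (hK : X.Y0.Known ℓ Kn) : X.sysL.Known ℓ (2 * X.m * Kn) := by
  obtain ⟨Lst, h1, h2, h3⟩ := hK
  refine ⟨fun γ d o => ((Lst γ d o) ×ˢ (Finset.univ : Finset (Fin (2 * X.m))) : Finset (X.Y0.C × Fin (2 * X.m))), fun γ d o => ?_, fun γ d ck => ?_, fun ck x hx => ?_⟩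
  · show ((((Lst γ d o) ×ˢ (Finset.univ : Finset (Fin (2 * X.m)))).card : ℕ) : ℝ) ≤ _
    rw [Finset.card_product, Finset.card_univ, Fintype.card_fin]
    push_cast
    have := h1 γ d o
    have hm : (0 : ℝ) ≤ 2 * X.m := by positivity
    nlinarith
  · obtain ⟨c, k⟩ := ck
    have : {o | ((c, k) : X.Y0.C × Fin (2 * X.m)) ∈ (Lst γ d o) ×ˢ (Finset.univ : Finset (Fin (2 * X.m)))} = {o | c ∈ Lst γ d o} := by
      ext o
      simp
    exact this ▸ h2 γ d c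
  · exact Finset.mem_product.2 ⟨h3 ck.1 x hx.1, Finset.mem_univ _⟩

theorem k3e3_knownH {D : Type} (ℓ : P.Lab D) (Kn : ℝ) (hK : X.Y0.Known ℓ Kn) : X.sysH.Known ℓ Kn := by
  obtain ⟨Lst, h1, h2, h3⟩ := hK
  exact ⟨Lst, h1, h2, fun c x hx => h3 c x hx.1⟩

/-! ## 5. Level 1: masses -/

theorem k3e3_tc_lt_tr (c : X.Y0.C) : X.Y0.tc c < X.tr c := by
  unfold KbSys.tc K3e3Plan.tr
  have : 0 < kbQ X.Y0.n := k2s_q_pos X.Y0
  nlinarith

theorem k3e3_Mx_le (hX : X.Ok) (c : X.Y0.C) (l : P.Lam) (hl : l ∈ X.Y0.A c) : X.Mx c l ≤ X.U * X.B c := by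
  obtain ⟨α, β, h⟩ := k3e3_der_affine (hX.wf.adm c) (P.co (X.Y0.wd c) l)
  have hlt := k3e3_tc_lt_tr X c
  have hsub : Set.Icc (X.Y0.tc c) (X.tr c) ⊆ {t | |α + β * t| ≤ X.U * X.B c} := by
    rw [← closure_Ico hlt.ne]
    refine closure_minimal (fun t ht => ?_) (isClosed_le (by fun_prop) continuous_const)
    have := hX.der c l hl t ht
    unfold K3e3Plan.der at this
    rwa [h] at this
  unfold K3e3Plan.Mx K3e3Plan.der
  rw [h, h]
  exact max_le (hsub ⟨le_rfl, hlt.le⟩) (hsub ⟨hlt.le, le_rfl⟩)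

theorem k3e3_Mx_ge (hP : P.WF) (hX : X.Ok) (c : X.Y0.C) (hc : X.low c) (l : P.Lam) (hl : l ∈ X.Y0.A c) : X.B c ≤ 2 * X.U3 * X.Mx c l := by
  have hB : 0 < X.B c := hP.B_pos _
  have hU := hX.U_ge
  have hU3 := hX.U3_ge
  have hδ := hX.δ_pos
  have ht0 := hX.ts_mem c
  have hv : |X.val c l (X.t0 c)| ≤ X.U * X.δ := hX.val c l hl _ ht0
  have hd : X.B c ^ 2 ≤ X.U3 * |X.dsc c l| := hX.dsc c l hl
  have hlow : |X.cur c| * (X.δ * (16 * X.U * X.U3 ^ 2)) ≤ X.B c ^ 2 := hc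
  set d := X.der c l (X.t0 c) with hd_def
  set s := X.cur c * X.val c l (X.t0 c) with hs_def
  have hs : 16 * X.U3 ^ 2 * |s| ≤ X.B c ^ 2 := by
    rw [hs_def, abs_mul]
    have h1 : |X.cur c| * |X.val c l (X.t0 c)| ≤ |X.cur c| * (X.U * X.δ) := by gcongr
    have h2 : 0 ≤ 16 * X.U3 ^ 2 := by positivity
    calc 16 * X.U3 ^ 2 * (|X.cur c| * |X.val c l (X.t0 c)|) ≤ 16 * X.U3 ^ 2 * (|X.cur c| * (X.U * X.δ)) := by gcongr
      _ = |X.cur c| * (X.δ * (16 * X.U * X.U3 ^ 2)) := by ring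
      _ ≤ _ := hlow
  have hs0 : 0 ≤ |s| := abs_nonneg s
  have hs2 : 2 * X.U3 * |s| ≤ X.B c ^ 2 / 8 := by
    have : X.U3 * |s| ≤ X.U3 ^ 2 * |s| := by
      have : X.U3 ≤ X.U3 ^ 2 := by nlinarith
      gcongr
    linarith
  have edsc : X.dsc c l = d ^ 2 - 2 * s := by
    unfold K3e3Plan.dsc
    rw [hs_def, hd_def]
    ring
  have hB2 : 0 < X.B c ^ 2 := by positivity
  have hsq : X.B c ^ 2 ≤ (2 * X.U3 * |d|) ^ 2 := by
    rw [edsc] at hd
    have hsle : s ≤ |s| := le_abs_self s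
    have hsge : -|s| ≤ s := neg_abs_le s
    rcases le_or_gt 0 (d ^ 2 - 2 * s) with hpos | hneg
    · rw [abs_of_nonneg hpos] at hd
      have h1 : X.U3 * (d ^ 2 - 2 * s) ≤ X.U3 * d ^ 2 + 2 * X.U3 * |s| := by nlinarith
      have h2 : X.U3 * d ^ 2 ≤ X.U3 ^ 2 * d ^ 2 := by
        have : X.U3 ≤ X.U3 ^ 2 := by nlinarith
        have hd2 : 0 ≤ d ^ 2 := sq_nonneg d
        gcongr
      rw [mul_pow, mul_pow, sq_abs]
      nlinarith
    · exfalso
      rw [abs_of_neg hneg] at hd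
      have h1 : X.U3 * -(d ^ 2 - 2 * s) ≤ 2 * X.U3 * |s| := by nlinarith [sq_nonneg d]
      linarith
  have h3 : X.B c ≤ 2 * X.U3 * |d| := by
    have h0 : 0 ≤ 2 * X.U3 * |d| := by positivity
    exact (pow_le_pow_iff_left₀ hB.le h0 (by norm_num)).1 hsq
  have h4 : |d| ≤ X.Mx c l := k3e3_der_le_Mx X hX c l _ (k3e3_I_sub X c ht0)
  calc X.B c ≤ 2 * X.U3 * |d| := h3
    _ ≤ _ := by gcongr

/-- **LEAF L-252-S3e3-COVER**.  `l ∈ Y0.A c`, low curvature.  At `t₀ ∈ I`: `2 |cur| |val| ≤ 2 U B² / Tt ≤ B² / (8 U3)`, `der² = dsc + 2 cur val ≥ 0` and `|dsc| ≥ B² / U3` give `dsc > 0`, `der (t₀)² ≥ 7 B² / (8 U3) ≥ (B / (2 U3))²`.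
So `B / (2 U3) ≤ |der t₀| ≤ Mx` (`k3e3_der_le_Mx`), and `Mx ≤ U B` (left end point in `I`; right end point: an affine function `≤ C` in absolute value on `[a, b)` is so at `b`, continuity / `closure_Ico`).
`exists_mem_Ico_zpow` for `x = Mx / B`, `y = 2` gives `j : ℤ`, `2^j ≤ x < 2^(j+1)`; `2^j ≤ U < 2^m` and `2^(j+1) > 1/(2 U3) ≥ 2^(1-m)` give `-m < j < m`: `k := j + m`.  `4 U3 2^j > 2 U3 x ≥ 1`.
Version 1: `der = 1`, `B = 1` (`k3e3_v1`, `hP.v1`), `x = 1`, so `j = 0`, `ρ = 1`. -/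
theorem k3e3_cover (hP : P.WF) (hX : X.Ok) (c : X.Y0.C) (hc : X.low c) : X.Y0.A c ⊆ ⋃ k, X.asgL (c, k) := by
  intro l hl
  have hB : 0 < X.B c := hP.B_pos _
  have hU := hX.U_ge
  have hU3 := hX.U3_ge
  have h1 := k3e3_Mx_ge X hP hX c hc l hl
  have h2 := k3e3_Mx_le X hX c l hl
  have hM : 0 < X.Mx c l := by
    by_contra h0
    have : X.Mx c l ≤ 0 := not_lt.1 h0
    nlinarith
  have hx : 0 < X.Mx c l / X.B c := by positivity
  obtain ⟨j, hj1, hj2⟩ := exists_mem_Ico_zpow hx (one_lt_two (α := ℝ))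
  rw [le_div_iff₀ hB] at hj1
  rw [div_lt_iff₀ hB] at hj2
  have hjpos : (0 : ℝ) < 2 ^ j := by positivity
  have e1 : (2 : ℝ) ^ (j + 1) = 2 * 2 ^ j := by rw [zpow_add_one₀ (by norm_num)]; ring
  rw [e1] at hj2
  -- j < m
  have hjm : j < (X.m : ℤ) := by
    have : (2 : ℝ) ^ j < 2 ^ (X.m : ℤ) := by
      rw [zpow_natCast]
      have h3 : (2 : ℝ) ^ j * X.B c ≤ X.U * X.B c := hj1.trans h2
      have h4 : (2 : ℝ) ^ j ≤ X.U := le_of_mul_le_mul_right h3 hB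
      exact h4.trans_lt hX.m_U
    exact (zpow_lt_zpow_iff_right₀ (one_lt_two (α := ℝ))).1 this
  -- 1 < 4 U3 2^j
  have hg2 : 1 < 4 * X.U3 * 2 ^ j := by
    have h3 : X.B c < 2 * X.U3 * (2 * 2 ^ j * X.B c) := lt_of_le_of_lt h1 (by gcongr)
    have h4 : 1 * X.B c < (4 * X.U3 * 2 ^ j) * X.B c := by nlinarith
    exact lt_of_mul_lt_mul_right h4 hB.le
  have hmj : -(X.m : ℤ) < j := by
    have : (2 : ℝ) ^ (-(X.m : ℤ)) < 2 ^ j := by
      rw [zpow_neg, zpow_natCast]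
      have hpm : (0 : ℝ) < 2 ^ X.m := by positivity
      rw [inv_lt_iff_one_lt_mul₀ hpm]
      have := hX.m_U3
      nlinarith
    exact (zpow_lt_zpow_iff_right₀ (one_lt_two (α := ℝ))).1 this
  have hk0 : 0 ≤ j + X.m := by omega
  have hk1 : (j + X.m).toNat < 2 * X.m := by omega
  have hρ : X.rho ⟨(j + X.m).toNat, hk1⟩ = 2 ^ j := by
    unfold K3e3Plan.rho
    congr 1
    simp only
    omega
  refine Set.mem_iUnion.2 ⟨⟨(j + X.m).toNat, hk1⟩, hl, ⟨hc, ?_, fun hv => ?_⟩, ?_, ?_⟩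
  · show 1 ≤ 4 * X.U3 * X.rho ⟨(j + X.m).toNat, hk1⟩
    rw [hρ]
    exact hg2.le
  · show X.rho ⟨(j + X.m).toNat, hk1⟩ = 1
    rw [hρ]
    have hB1 : X.B c = 1 := (hP.v1 hv _).1
    have hM1 : X.Mx c l = 1 := by
      unfold K3e3Plan.Mx K3e3Plan.der kbX
      rw [(k3e3_v1 (hX.wf.adm c) hv _ _ _).1, (k3e3_v1 (hX.wf.adm c) hv _ _ _).1]
      simp
    rw [hB1, hM1, mul_one] at hj1 hj2
    have hj0 : j ≤ 0 := by
      by_contra h
      have : (1 : ℤ) ≤ j := by omega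
      have : (2 : ℝ) ^ (1 : ℤ) ≤ 2 ^ j := zpow_le_zpow_right₀ (by norm_num) this
      norm_num at this
      linarith
    have hj0' : 0 ≤ j := by
      by_contra h
      have : j ≤ -1 := by omega
      have : (2 : ℝ) ^ j ≤ 2 ^ (-1 : ℤ) := zpow_le_zpow_right₀ (by norm_num) this
      norm_num at this
      linarith
    have : j = 0 := le_antisymm hj0 hj0'
    rw [this, zpow_zero]
  · show X.B c * X.rho ⟨(j + X.m).toNat, hk1⟩ ≤ X.Mx c l
    rw [hρ]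
    linarith
  · show X.Mx c l < 2 * (X.B c * X.rho ⟨(j + X.m).toNat, hk1⟩)
    rw [hρ]
    linarith

theorem k3e3_kap_pos (hX : X.Ok) : 0 < X.kap := by
  unfold K3e3Plan.kap
  have := hX.K_ge
  positivity

theorem k3e3_sec_le (hP : P.WF) (hX : X.Ok) (ck : X.Y0.C × Fin (2 * X.m)) (l : P.Lam) (hl : l ∈ X.asgL ck) :
    volume (Prod.mk l ⁻¹' X.lostL ck) ≤ ENNReal.ofReal (4 * X.kap * X.Y0.q) := by
  have hg : X.good ck := hl.2.1
  have hρ := k3e3_rho_pos X ck.2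
  have hB : 0 < X.B ck.1 := hP.B_pos _
  obtain ⟨α, β, h⟩ := k3e3_der_affine (hX.wf.adm ck.1) (P.co (X.Y0.wd ck.1) l)
  have hder : ∀ t, kbX (kbDw (X.tstL ck)) (P.co (X.Y0.wd ck.1) l) t = α / X.rho ck.2 + β / X.rho ck.2 * t := by
    intro t
    rw [k3e3_tstL_dw X hg]
    unfold K3e3Plan.der
    rw [h]
    ring
  have etr : X.tr ck.1 = X.Y0.tc ck.1 + X.Y0.q := by
    unfold K3e3Plan.tr KbSys.tc KbSys.q
    ring
  have hq : 0 < X.Y0.q := k2s_q_pos X.Y0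
  have hsup : ∃ t ∈ Set.Icc (X.Y0.tc ck.1) (X.Y0.tc ck.1 + X.Y0.q), X.B ck.1 ≤ |α / X.rho ck.2 + β / X.rho ck.2 * t| := by
    have h1 : X.B ck.1 * X.rho ck.2 ≤ X.Mx ck.1 l := hl.2.2.1
    have key : ∀ t, X.B ck.1 * X.rho ck.2 ≤ |X.der ck.1 l t| → X.B ck.1 ≤ |α / X.rho ck.2 + β / X.rho ck.2 * t| := by
      intro t ht
      rw [← hder, k3e3_tstL_dw X hg, abs_div, abs_of_pos hρ, le_div_iff₀ hρ]
      exact ht
    rcases le_max_iff.1 h1 with h2 | h2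
    · exact ⟨_, ⟨le_rfl, by linarith⟩, key _ h2⟩
    · exact ⟨_, ⟨by linarith, le_rfl⟩, key _ (etr ▸ h2)⟩
  refine le_trans (measure_mono ?_) (rmz_affine_good_time (α / X.rho ck.2) (β / X.rho ck.2) (X.Y0.tc ck.1) X.Y0.q (X.B ck.1) X.kap hq hB (k3e3_kap_pos X hX) hsup)
  intro t ht
  have ht' : (l, t) ∈ X.lostL ck := ht
  refine ⟨etr ▸ k3e3_I_sub X ck.1 ht'.2.1, ?_⟩
  rw [← hder]
  exact ht'.2.2

/-- **LEAF L-252-S3e3-LOSS1** (one label).  `P.mu ≤ ν × tm` (`k2s_mu_le`), `tm ≤ volume` (`k2s_tm_le`); `Measure.prod_apply` (`k3e3_lostL_meas`), the section at `l ∈ asgL ck` is `⊆ {t ∈ Icc tc (tc + q) | |α + β t| < κ B}` where `α + β t = der / ρ`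
has absolute value `≥ B` at one end point: `rmz_affine_good_time` (`m := B`, `ε := κ`); the section is empty for `l ∉ asgL ck`; `lintegral` of a constant on `asgL ck`. -/
theorem k3e3_loss_one (hP : P.WF) (hX : X.Ok) (ck : X.Y0.C × Fin (2 * X.m)) :
    P.mu (X.Y0.wd ck.1) (X.lostL ck) ≤ ENNReal.ofReal (4 * X.kap) * (ENNReal.ofReal X.Y0.q * P.nu (X.Y0.wd ck.1) (X.asgL ck)) := by
  have := hP.prob (X.Y0.wd ck.1)
  have hs : SFinite (KbPb.tm) := by unfold KbPb.tm; infer_instance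
  have hκ := k3e3_kap_pos X hX
  calc P.mu (X.Y0.wd ck.1) (X.lostL ck) ≤ (P.nu (X.Y0.wd ck.1)).prod KbPb.tm (X.lostL ck) := k2s_mu_le P _ _
    _ = ∫⁻ l, KbPb.tm (Prod.mk l ⁻¹' X.lostL ck) ∂P.nu (X.Y0.wd ck.1) := Measure.prod_apply (k3e3_lostL_meas X hP hX ck)
    _ ≤ ∫⁻ l, (X.asgL ck).indicator (fun _ => ENNReal.ofReal (4 * X.kap * X.Y0.q)) l ∂P.nu (X.Y0.wd ck.1) := by
        refine lintegral_mono fun l => ?_
        by_cases hl : l ∈ X.asgL ck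
        · rw [Set.indicator_of_mem hl]
          exact (k2s_tm_le _).trans (k3e3_sec_le X hP hX ck l hl)
        · have : Prod.mk l ⁻¹' X.lostL ck = ∅ := by
            ext t
            simp only [Set.mem_preimage, Set.mem_empty_iff_false, iff_false]
            exact fun h => hl h.1
          rw [this, measure_empty]
          exact zero_le
    _ = ENNReal.ofReal (4 * X.kap * X.Y0.q) * P.nu (X.Y0.wd ck.1) (X.asgL ck) := by
        rw [lintegral_indicator (k3e3_asgL_meas X hP hX ck), setLIntegral_const]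
    _ = _ := by
        rw [ENNReal.ofReal_mul (by positivity), mul_assoc]

/-- **LEAF L-252-S3e3-SPLIT** (this and the next statement): sum of `k3e3_loss_one`; `∑ ω q ν (asgL ck) = X.sysL.Z ≤ 1` by `k2s_Z_le hP (k3e3_wfL ..)`. -/
theorem k3e3_loss (hP : P.WF) (hX : X.Ok) : ∑ ck, P.om (X.Y0.wd ck.1) * P.mu (X.Y0.wd ck.1) (X.lostL ck) ≤ ENNReal.ofReal (4 * X.kap) := by
  have hZ : X.sysL.Z ≤ 1 := k2s_Z_le X.sysL hP (k3e3_wfL X hP hX)
  have eZ : X.sysL.Z = ∑ ck : X.Y0.C × Fin (2 * X.m), P.om (X.Y0.wd ck.1) * ENNReal.ofReal X.Y0.q * P.nu (X.Y0.wd ck.1) (X.asgL ck) := rfl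
  calc ∑ ck, P.om (X.Y0.wd ck.1) * P.mu (X.Y0.wd ck.1) (X.lostL ck)
      ≤ ∑ ck : X.Y0.C × Fin (2 * X.m), ENNReal.ofReal (4 * X.kap) * (P.om (X.Y0.wd ck.1) * ENNReal.ofReal X.Y0.q * P.nu (X.Y0.wd ck.1) (X.asgL ck)) := by
        refine Finset.sum_le_sum fun ck _ => ?_
        calc P.om (X.Y0.wd ck.1) * P.mu (X.Y0.wd ck.1) (X.lostL ck)
            ≤ P.om (X.Y0.wd ck.1) * (ENNReal.ofReal (4 * X.kap) * (ENNReal.ofReal X.Y0.q * P.nu (X.Y0.wd ck.1) (X.asgL ck))) := by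
              gcongr
              exact k3e3_loss_one X hP hX ck
          _ = _ := by ring
    _ = ENNReal.ofReal (4 * X.kap) * X.sysL.Z := by rw [eZ, Finset.mul_sum]
    _ ≤ ENNReal.ofReal (4 * X.kap) * 1 := by gcongr
    _ = _ := mul_one _

/-- High `c`: `Y0.S c = slH c`.  Low `c`: `Y0.S c ⊆ ⋃ k, slL (c, k) ∪ lostL (c, k)` (`hX.wf.S_sub`, `k3e3_cover`, `le_or_gt`), `measure_iUnion_fintype_le`/`measure_union_le`; `Fintype.sum_prod_type`. -/
theorem k3e3_split (hP : P.WF) (hX : X.Ok) : X.Y0.mass ≤ X.sysH.mass + (X.sysL.mass + ∑ ck, P.om (X.Y0.wd ck.1) * P.mu (X.Y0.wd ck.1) (X.lostL ck)) := by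
  have e0 : X.Y0.mass = ∑ c, P.om (X.Y0.wd c) * P.mu (X.Y0.wd c) (X.Y0.S c) := rfl
  have eH : X.sysH.mass = ∑ c, P.om (X.Y0.wd c) * P.mu (X.Y0.wd c) (X.slH c) := rfl
  have eL : X.sysL.mass = ∑ ck : X.Y0.C × Fin (2 * X.m), P.om (X.Y0.wd ck.1) * P.mu (X.Y0.wd ck.1) (X.slL ck) := rfl
  rw [e0, eH, eL, Fintype.sum_prod_type, Fintype.sum_prod_type, ← Finset.sum_add_distrib, ← Finset.sum_add_distrib]
  refine Finset.sum_le_sum fun c _ => ?_
  simp only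
  rw [← Finset.mul_sum, ← Finset.mul_sum, ← mul_add, ← mul_add]
  gcongr
  by_cases hc : X.low c
  · have hsub : X.Y0.S c ⊆ ⋃ k, (X.slL (c, k) ∪ X.lostL (c, k)) := by
      intro x hx
      have hx2 := (hX.wf.S_sub c hx).2
      obtain ⟨k, hk⟩ := Set.mem_iUnion.1 (k3e3_cover X hP hX c hc hx2.1)
      refine Set.mem_iUnion.2 ⟨k, ?_⟩
      rcases le_or_gt (X.kap * X.B c) |kbX (kbDw (X.tstL (c, k))) (P.co (X.Y0.wd c) x.1) x.2| with h | h
      · exact Or.inl ⟨hx, hk, h⟩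
      · exact Or.inr ⟨hk, hx2.2, h⟩
    calc P.mu (X.Y0.wd c) (X.Y0.S c) ≤ P.mu (X.Y0.wd c) (⋃ k, (X.slL (c, k) ∪ X.lostL (c, k))) := measure_mono hsub
      _ ≤ ∑ k, P.mu (X.Y0.wd c) (X.slL (c, k) ∪ X.lostL (c, k)) := measure_iUnion_fintype_le _ _
      _ ≤ ∑ k, (P.mu (X.Y0.wd c) (X.slL (c, k)) + P.mu (X.Y0.wd c) (X.lostL (c, k))) := Finset.sum_le_sum fun k _ => measure_union_le _ _
      _ = ∑ k, P.mu (X.Y0.wd c) (X.slL (c, k)) + ∑ k, P.mu (X.Y0.wd c) (X.lostL (c, k)) := Finset.sum_add_distrib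
      _ ≤ _ := le_add_self
  · have : X.Y0.S c ⊆ X.slH c := fun x hx => ⟨hx, hc⟩
    exact (measure_mono this).trans le_self_add

/-- **EXIT OF LEVEL 1** (03 l.1654-1776) -/
theorem k3e3_build (hP : P.WF) (hX : X.Ok) {D : Type} (ℓ : P.Lab D) (Kn : ℝ) (hK : X.Y0.Known ℓ Kn) :
    (X.sysL.WF ∧ X.sysL.Geo (16 * X.K) X.aL ∧ X.sysL.Big (4 * X.K) ∧ X.sysL.Known ℓ (2 * X.m * Kn)) ∨
    (X.sysH.WF ∧ X.sysH.Geo X.K X.aH ∧ X.sysH.Big (2 * X.K) ∧ X.sysH.Known ℓ Kn) := by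
  have hK0 : 0 < X.K := lt_of_lt_of_le one_pos hX.K_ge
  by_cases hH : X.sysH.Big (2 * X.K)
  · exact Or.inr ⟨k3e3_wfH X hP hX, k3e3_geoH X hP hX, hH, k3e3_knownH X ℓ Kn hK⟩
  refine Or.inl ⟨k3e3_wfL X hP hX, k3e3_geoL X hP hX, ?_, k3e3_knownL X ℓ Kn hK⟩
  by_contra hL
  unfold KbSys.Big at hH hL
  rw [not_le] at hH hL
  have h1 : X.Y0.mass ≤ X.sysH.mass + (X.sysL.mass + ENNReal.ofReal (4 * X.kap)) :=
    (k3e3_split X hP hX).trans (by gcongr; exact k3e3_loss X hP hX)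
  have h2 : (1 : ℝ≥0∞) ≤ ENNReal.ofReal X.K * (X.sysH.mass + (X.sysL.mass + ENNReal.ofReal (4 * X.kap))) := hX.big.trans (by gcongr)
  rw [mul_add, mul_add, ← ENNReal.ofReal_mul hK0.le] at h2
  have e1 : X.K * (4 * X.kap) = 1 / 4 := by
    unfold K3e3Plan.kap
    field_simp
    norm_num
  rw [e1] at h2
  have e2 : ENNReal.ofReal (2 * X.K) = 2 * ENNReal.ofReal X.K := by
    rw [ENNReal.ofReal_mul (by norm_num)]; simp
  have e4 : ENNReal.ofReal (4 * X.K) = 4 * ENNReal.ofReal X.K := by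
    rw [ENNReal.ofReal_mul (by norm_num)]; simp
  rw [e2, mul_assoc] at hH
  rw [e4, mul_assoc] at hL
  generalize ENNReal.ofReal X.K * X.sysH.mass = a at h2 hH
  generalize ENNReal.ofReal X.K * X.sysL.mass = b at h2 hL
  have ha : a ≠ ∞ := by
    intro h; rw [h] at hH; simp at hH
  have hb : b ≠ ∞ := by
    intro h; rw [h] at hL; simp at hL
  lift a to NNReal using ha
  lift b to NNReal using hb
  have e5 : ENNReal.ofReal (1 / 4) = ((1 / 4 : NNReal) : ℝ≥0∞) := by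
    rw [ENNReal.ofReal]; congr 1; ext; simp
  rw [e5] at h2
  norm_cast at h2 hH hL
  have h2' : (1 : ℝ) ≤ a + (b + 1 / 4) := by exact_mod_cast h2
  have hH' : (2 : ℝ) * a < 1 := by exact_mod_cast hH
  have hL' : (4 : ℝ) * b < 1 := by exact_mod_cast hL
  linarith

theorem k3e3_tmpL (hX : X.Ok) (Q : ℝ) (hT : X.Y0.Tmp Q) : X.sysL.Tmp (2 * X.m * Q) := by
  have hm : (1 : ℝ) ≤ 2 * X.m := by
    have : X.m ≠ 0 := by
      intro h
      have h1 := hX.m_U3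
      rw [h, pow_zero] at h1
      linarith [hX.U3_ge]
    have : (1 : ℝ) ≤ X.m := by exact_mod_cast Nat.one_le_iff_ne_zero.2 this
    linarith
  have hQ : 0 ≤ Q := le_trans (Nat.cast_nonneg _) hT.card
  refine ⟨?_, ?_, fun ck => ?_, fun ck => ?_⟩
  · show ((Fintype.card (X.Y0.C × Fin (2 * X.m)) : ℕ) : ℝ) ≤ _
    rw [Fintype.card_prod, Fintype.card_fin]
    push_cast
    have := hT.card
    nlinarith
  · show 1 ≤ 2 * X.m * Q * X.Y0.q
    have := hT.q_low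
    nlinarith
  · show 1 ≤ 2 * X.m * Q * (X.Y0.ch ck.1).J
    have := hT.J_low ck.1
    nlinarith
  · show ‖(X.Y0.ch ck.1).y0‖ + ‖(X.Y0.ch ck.1).y1‖ ≤ _
    have := hT.cen ck.1
    nlinarith

theorem k3e3_tmpH (Q : ℝ) (hT : X.Y0.Tmp Q) : X.sysH.Tmp Q :=
  ⟨hT.card, hT.q_low, hT.J_low, hT.cen⟩

end plan

/-! ## 6. Level 2: from a frozen table to a plan (03 l.1561-1652) -/

section tab

variable {Y : KbSys P} (X : K3e3Tab Y)

theorem k3e3_src_meas (hY : Y.WF) (hX : X.Ok) (c : X.L) : MeasurableSet (X.src c) := by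
  have : X.src c = ⋃ A, {l | Y.wd A = X.wd c ∧ X.t0 c ∈ Y.I A ∧ l ∈ Y.A A ∧ l ∈ X.G A c} := by
    ext l
    simp [K3e3Tab.src]
  rw [this]
  refine MeasurableSet.iUnion fun A => ?_
  by_cases h1 : Y.wd A = X.wd c ∧ X.t0 c ∈ Y.I A
  · have : {l | Y.wd A = X.wd c ∧ X.t0 c ∈ Y.I A ∧ l ∈ Y.A A ∧ l ∈ X.G A c} = Y.A A ∩ X.G A c := by
      ext l
      simp only [Set.mem_ofPred_eq, Set.mem_inter_iff]
      tauto
    rw [this]
    exact (hY.A_meas A).inter (hX.G_meas A c)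
  · have : {l | Y.wd A = X.wd c ∧ X.t0 c ∈ Y.I A ∧ l ∈ Y.A A ∧ l ∈ X.G A c} = ∅ := by
      ext l
      simp only [Set.mem_ofPred_eq, Set.mem_empty_iff_false, iff_false]
      tauto
    rw [this]
    exact MeasurableSet.empty

/-- A condition `∀ t ∈ I, f (co l) t ≤ C` with `f` continuous is the preimage under the measurable `P.co γ` of a CLOSED set (`k3e3_forall_meas`). -/
theorem k3e3_asg_meas (hP : P.WF) (hY : Y.WF) (hX : X.Ok) (c : X.L) : MeasurableSet (X.asg c) := by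
  have hq := (hX.adm c).1
  have hbox : Continuous fun p : KbTj v × ℝ => ‖(X.ch c).Di.mulVec (kbY p.1 p.2 - (X.ch c).yc p.2)‖ := by
    have hy : Continuous fun p : KbTj v × ℝ => kbY p.1 p.2 - (X.ch c).yc p.2 := by
      unfold kbY KbChart.yc
      fun_prop
    exact (Continuous.matrix_mulVec continuous_const hy).norm
  have e : X.asg c = X.src c ∩ ({l | ∀ t ∈ X.I c, ‖(X.ch c).Di.mulVec (kbY (P.co (X.wd c) l) t - (X.ch c).yc t)‖ ≤ X.K} ∩
      ({l | ∀ t ∈ X.I c, |kbX (X.ch c).T (P.co (X.wd c) l) t| ≤ X.U * X.δ} ∩ ({l | ∀ t ∈ X.I c, |kbX (kbDw (X.ch c).T) (P.co (X.wd c) l) t| ≤ X.U * X.B c} ∩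
        {l | X.B c ^ 2 ≤ X.U3 * |X.dsc c l|}))) := rfl
  rw [e]
  refine (k3e3_src_meas X hY hX c).inter ((k3e3_forall_meas hbox (hP.co_meas _) _ _).inter
    ((k3e3_forall_meas (k3e3_X_cont hq).abs (hP.co_meas _) _ _).inter ((k3e3_forall_meas (k3e3_X_cont (k3e3_dw_quad hq)).abs (hP.co_meas _) _ _).inter ?_)))
  refine measurableSet_le measurable_const (measurable_const.mul (Measurable.abs ?_))
  unfold K3e3Tab.dsc K3e3Tab.der K3e3Tab.val
  exact ((k3e3_X_meas_t hP (k3e3_dw_quad hq) _ _).pow_const 2).sub (measurable_const.mul (k3e3_X_meas_t hP hq _ _))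

theorem k3e3_sl_meas (hP : P.WF) (hY : Y.WF) (hX : X.Ok) (c : X.L) : MeasurableSet (X.sl c) := by
  have e : X.sl c = (Prod.fst ⁻¹' X.asg c) ∩ ((Prod.snd ⁻¹' X.I c) ∩ ⋃ A', {x | Y.wd A' = X.wd c ∧ x ∈ Y.S A' ∧ c ∈ X.cmp A'}) := by
    ext x
    simp [K3e3Tab.sl]
  rw [e]
  refine (measurable_fst (k3e3_asg_meas X hP hY hX c)).inter ((measurable_snd measurableSet_Ico).inter (MeasurableSet.iUnion fun A' => ?_))
  have e2 : {x | Y.wd A' = X.wd c ∧ x ∈ Y.S A' ∧ c ∈ X.cmp A'} = {_x : P.Lam × ℝ | Y.wd A' = X.wd c} ∩ (Y.S A' ∩ {_x | c ∈ X.cmp A'}) := rfl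
  rw [e2]
  exact (MeasurableSet.const _).inter ((hY.S_meas A').inter (MeasurableSet.const _))

/-- `l ∈ src c ∩ src c'` : source labels `A`, `A'` in the same world, both intervals contain the same time `t0 c = t0 c'`, so `Y.iv A = Y.iv A'` (`k2s_kbI_disj`), `A = A'` by `hY.A_disj`; then `hX.G_disj`. -/
theorem k3e3_asg_disj (hY : Y.WF) (hX : X.Ok) {c c' : X.L} (h : c ≠ c') (hw : X.wd c = X.wd c') (hi : X.iv c = X.iv c') : Disjoint (X.asg c) (X.asg c') := by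
  rw [Set.disjoint_left]
  rintro l ⟨⟨A, hA1, hA2, hA3, hA4⟩, -⟩ ⟨⟨A', hA1', hA2', hA3', hA4'⟩, -⟩
  have ht : X.t0 c = X.t0 c' := by
    unfold K3e3Tab.t0
    rw [hw, hi]
  have hiv : Y.iv A = Y.iv A' := by
    by_contra hne
    exact Set.disjoint_left.1 (k2s_kbI_disj Y.n hne) hA2 (ht ▸ hA2')
  have hAA : A = A' := by
    by_contra hne
    exact Set.disjoint_left.1 (hY.A_disj A A' hne (hA1.trans (hw.trans hA1'.symm)) hiv) hA3 hA3'
  subst hAA
  exact Set.disjoint_left.1 (hX.G_disj A c c' h hw hi) hA4 hA4'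

theorem k3e3_asg_sub (hY : Y.WF) (c : X.L) : X.asg c ⊆ P.Sp (X.wd c) := by
  rintro l ⟨⟨A, hA1, -, hA3, -⟩, -⟩
  exact hA1 ▸ hY.A_sub A hA3

theorem k3e3_sl_sub (hY : Y.WF) (c : X.L) : X.sl c ⊆ P.Ev (X.wd c) := by
  rintro x ⟨-, -, A', hA1, hA2, -⟩
  exact hA1 ▸ (hY.S_sub A' hA2).1

theorem k3e3_tab_wf (hP : P.WF) (hY : Y.WF) (hX : X.Ok) : X.sys0.WF := by
  exact {
    iv_lt := hX.iv_lt
    A_meas := k3e3_asg_meas X hP hY hX
    A_sub := k3e3_asg_sub X hY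
    A_disj := fun _ _ h hw hi => k3e3_asg_disj X hY hX h hw hi
    S_meas := k3e3_sl_meas X hP hY hX
    S_sub := fun c _ hx => ⟨k3e3_sl_sub X hY c hx, hx.1, hx.2.1⟩
    inv := hX.inv
    adm := hX.adm }

/-- the plan of a table is a plan -/
theorem k3e3_tab_ok (hP : P.WF) (hY : Y.WF) (hX : X.Ok) : X.plan.Ok := by
  exact {
    K_ge := hX.K_ge
    U_ge := hX.U_ge
    U3_ge := hX.U3_ge
    δ_pos := hX.δ_pos
    m_U3 := hX.m_U3
    m_U := hX.m_U
    wf := k3e3_tab_wf X hP hY hX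
    ts_mem := hX.ts_mem
    size := hX.size
    box := fun _ _ hl => hl.2.1
    val := fun _ _ hl => hl.2.2.1
    der := fun _ _ hl => hl.2.2.2.1
    dsc := fun _ _ hl => hl.2.2.2.2
    big := hX.mass }

/-- (part of **LEAF L-252-S3e3-KNOWN**)  With the old list function `Lst` : `Lst' γ d o := univ.filter fun c => X.wd c = γ ∧ ∃ A' ∈ Lst γ d o, c ∈ X.cmp A'` `⊆ (Lst γ d o).biUnion X.cmp` (`Finset.card_biUnion_le`): at most `K * K`.
Measurability: finite union over `A'` of `{o | A' ∈ Lst γ d o}`. -/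
theorem k3e3_tab_known {D : Type} (ℓ : P.Lab D) (hK : Y.Known ℓ X.K) (hX : X.Ok) : X.sys0.Known ℓ (X.K ^ 2) := by
  classical
  obtain ⟨Lst, h1, h2, h3⟩ := hK
  refine ⟨fun γ d o => ((Lst γ d o).biUnion X.cmp : Finset X.L), fun γ d o => ?_, fun γ d c => ?_, fun c x hx => ?_⟩
  · have hc : ((Lst γ d o).biUnion X.cmp).card ≤ ∑ A ∈ Lst γ d o, (X.cmp A).card := Finset.card_biUnion_le
    have hc' : (((Lst γ d o).biUnion X.cmp).card : ℝ) ≤ ∑ A ∈ Lst γ d o, ((X.cmp A).card : ℝ) := by exact_mod_cast hc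
    refine hc'.trans ?_
    calc ∑ A ∈ Lst γ d o, ((X.cmp A).card : ℝ) ≤ ∑ _A ∈ Lst γ d o, X.K := Finset.sum_le_sum fun A _ => hX.cmp_card A
      _ = (Lst γ d o).card * X.K := by rw [Finset.sum_const, nsmul_eq_mul]
      _ ≤ X.K * X.K := by
          have := h1 γ d o
          have := hX.K_ge
          nlinarith
      _ = X.K ^ 2 := by ring
  · have hc : ∀ c : X.L, MeasurableSet {o | c ∈ ((Lst γ d o).biUnion X.cmp : Finset X.L)} := by
      intro c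
      have : {o | c ∈ ((Lst γ d o).biUnion X.cmp : Finset X.L)} = ⋃ A, {o | A ∈ Lst γ d o ∧ c ∈ X.cmp A} := by
        ext o
        simp
      rw [this]
      refine MeasurableSet.iUnion fun A => ?_
      have e2 : {o | A ∈ Lst γ d o ∧ c ∈ X.cmp A} = {o | A ∈ Lst γ d o} ∩ {_o | c ∈ X.cmp A} := rfl
      rw [e2]
      exact (h2 γ d A).inter (MeasurableSet.const _)
    exact hc c
  · obtain ⟨-, -, A', hA1, hA2, hA3⟩ := hx
    have := h3 A' x hA2
    rw [hA1] at this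
    exact Finset.mem_biUnion.2 ⟨A', this, hA3⟩

/-- **EXIT OF PART 3** -/
theorem k3e3_exit (hP : P.WF) (hY : Y.WF) {D : Type} (ℓ : P.Lab D) (hK : Y.Known ℓ X.K) (hX : X.Ok) :
    (X.plan.sysL.WF ∧ X.plan.sysL.Geo (16 * X.K) X.plan.aL ∧ X.plan.sysL.Big (4 * X.K) ∧ X.plan.sysL.Known ℓ (2 * X.m * X.K ^ 2)) ∨
    (X.plan.sysH.WF ∧ X.plan.sysH.Geo X.K X.plan.aH ∧ X.plan.sysH.Big (2 * X.K) ∧ X.plan.sysH.Known ℓ (X.K ^ 2)) :=
  k3e3_build X.plan hP (k3e3_tab_ok X hP hY hX) ℓ (X.K ^ 2) (k3e3_tab_known X ℓ hK hX)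

/-- the selection contains the frozen successes -/
theorem k3e3_mass_of_suc (Suc : P.W → Set (P.Lam × ℝ)) (h : ∀ γ, ∀ x ∈ Suc γ, ∃ c, X.wd c = γ ∧ x ∈ X.sl c) : P.mass Suc ≤ X.sys0.mass := by
  classical
  show ∑ γ, P.om γ * P.mu γ (Suc γ) ≤ ∑ c, P.om (X.wd c) * P.mu (X.wd c) (X.sl c)
  rw [← Finset.sum_fiberwise Finset.univ X.wd]
  refine Finset.sum_le_sum fun γ _ => ?_
  have h1 : Suc γ ⊆ ⋃ c ∈ Finset.univ.filter (fun c => X.wd c = γ), X.sl c := by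
    intro x hx
    obtain ⟨c, hc, hxc⟩ := h γ x hx
    simp only [Set.mem_iUnion]
    exact ⟨c, Finset.mem_filter.2 ⟨Finset.mem_univ _, hc⟩, hxc⟩
  calc P.om γ * P.mu γ (Suc γ) ≤ P.om γ * ∑ c ∈ Finset.univ.filter (fun c => X.wd c = γ), P.mu γ (X.sl c) := by
        gcongr
        exact (measure_mono h1).trans (measure_biUnion_finset_le _ _)
    _ = ∑ c ∈ Finset.univ.filter (fun c => X.wd c = γ), P.om (X.wd c) * P.mu (X.wd c) (X.sl c) := by
        rw [Finset.mul_sum]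
        refine Finset.sum_congr rfl fun c hc => ?_
        rw [(Finset.mem_filter.1 hc).2]

end tab

/-! ## 7. Freezing -/

/-- **freezing** (03 l.1577-1596): for every index (world, block) a parameter outside a null set whose mass is at least the average. -/
theorem k3e3_freeze {ι : Type*} [Fintype ι] {Θ : ι → Type*} [∀ i, MeasurableSpace (Θ i)] (π : ∀ i, Measure (Θ i)) (hπ : ∀ i, IsProbabilityMeasure (π i)) (wt : ι → ℝ≥0∞)
    (s : ∀ i, Θ i → ℝ≥0∞) (hfin : ∀ i, ∫⁻ x, s i x ∂π i ≠ ∞) (N : ∀ i, Set (Θ i)) (hN : ∀ i, π i (N i) = 0) :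
    ∃ ϑ : ∀ i, Θ i, (∀ i, ϑ i ∉ N i) ∧ ∑ i, wt i * ∫⁻ x, s i x ∂π i ≤ ∑ i, wt i * s i (ϑ i) := by
  have h : ∀ i, ∃ x, x ∉ N i ∧ ∫⁻ a, s i a ∂π i ≤ s i x := fun i => by
    have := hπ i
    exact exists_notMem_null_lintegral_le (hfin i) (hN i)
  choose ϑ h1 h2 using h
  exact ⟨ϑ, h1, Finset.sum_le_sum fun i _ => by gcongr; exact h2 i⟩

/-! ## 8. Return from the coordinates of a frame (03 l.1762-1768) -/

theorem k3e3_rq_mul {A A' : KbTest v} (h : ∃ (c0 ct : ℝ) (cy : KbB v) (cw : ℝ), ∀ t y w, A t y w = c0 + ct * t + cy ⬝ᵥ y + cw * w)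
    (h' : ∃ (c0 ct : ℝ) (cy : KbB v) (cw : ℝ), ∀ t y w, A' t y w = c0 + ct * t + cy ⬝ᵥ y + cw * w) :
    KbIsQuad fun t y w => A t y w * A' t y w := by
  obtain ⟨c0, ct, cy, cw, hA⟩ := h
  obtain ⟨d0, dt, dy, dw, hA'⟩ := h'
  refine ⟨⟨c0 * d0, c0 * dt + ct * d0, c0 • dy + d0 • cy, c0 * dw + cw * d0, ct * dt, ct • dy + dt • cy, ct * dw + cw * dt,
    Matrix.vecMulVec cy dy, cw • dy + dw • cy, cw * dw⟩, fun t y w => ?_⟩
  show A t y w * A' t y w = _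
  rw [hA, hA']
  unfold KbQuad.ev
  simp only [add_dotProduct, smul_dotProduct, smul_eq_mul, Matrix.vecMulVec_mulVec, dotProduct_smul, op_smul_eq_smul]
  rw [dotProduct_comm y cy]
  ring

theorem k3e3_rq_add {T T' : KbTest v} (h : KbIsQuad T) (h' : KbIsQuad T') : KbIsQuad fun t y w => T t y w + T' t y w := by
  obtain ⟨Q, hQ⟩ := h
  obtain ⟨Q', hQ'⟩ := h'
  refine ⟨⟨Q.c0 + Q'.c0, Q.ct + Q'.ct, Q.cy + Q'.cy, Q.cw + Q'.cw, Q.ctt + Q'.ctt, Q.cty + Q'.cty, Q.ctw + Q'.ctw, Q.cyy + Q'.cyy,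
    Q.cyw + Q'.cyw, Q.cww + Q'.cww⟩, fun t y w => ?_⟩
  show T t y w + T' t y w = _
  rw [hQ, hQ']
  unfold KbQuad.ev
  simp only [add_dotProduct, Matrix.add_mulVec, dotProduct_add]
  ring

theorem k3e3_rq_sum {ι : Type*} (s : Finset ι) (F : ι → KbTest v) (h : ∀ i ∈ s, KbIsQuad (F i)) :
    KbIsQuad fun t y w => ∑ i ∈ s, F i t y w := by
  classical
  induction s using Finset.induction_on with
  | empty =>
    refine ⟨⟨0, 0, 0, 0, 0, 0, 0, 0, 0, 0⟩, fun t y w => ?_⟩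
    unfold KbQuad.ev
    simp
  | insert a s ha ih =>
    obtain ⟨Q, hQ⟩ := k3e3_rq_add (h a (Finset.mem_insert_self a s)) (ih fun i hi => h i (Finset.mem_insert_of_mem hi))
    refine ⟨Q, fun t y w => ?_⟩
    rw [← hQ]
    exact Finset.sum_insert ha

theorem k3e3_rq_Z (fr : KbChart v) (t1 q1 : ℝ) (a : Fin (v.j + 1)) :
    ∃ (c0 ct : ℝ) (cy : KbB v) (cw : ℝ), ∀ (t : ℝ) (y : KbB v) (w : ℝ), k3e3Z fr t1 q1 t y a = c0 + ct * t + cy ⬝ᵥ y + cw * w := by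
  refine Fin.cases ?_ (fun i => ?_) a
  · refine ⟨-t1 / q1, 1 / q1, 0, 0, fun t y w => ?_⟩
    unfold k3e3Z
    simp only [Fin.cons_zero, zero_dotProduct]
    ring
  · refine ⟨-(fr.Di i ⬝ᵥ fr.y0), -(fr.Di i ⬝ᵥ fr.y1), fr.Di i, 0, fun t y w => ?_⟩
    unfold k3e3Z KbChart.yc
    simp only [Fin.cons_succ, Matrix.mulVec, dotProduct_sub, dotProduct_add, dotProduct_smul, smul_eq_mul]
    ring

/-- **LEAF L-252-S3e3-RET1**.  Every coordinate of `k3e3Z` and `B * w` are affine in `(t, y, w)`; sums, multiples and products of two affine tests are `KbIsQuad`.  (`cases v`, `Fin.sum_univ_succ`, explicit `KbQuad`, `ring`; or closure lemmas.) -/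
theorem k3e3_ret_quad (Pq : K3bEq (v.j + 1)) (fr : KbChart v) (t1 q1 B : ℝ) : KbIsQuad (k3e3Ret Pq fr t1 q1 B) := by
  have hz := k3e3_rq_Z fr t1 q1
  have hw : ∃ (c0 ct : ℝ) (cy : KbB v) (cw : ℝ), ∀ (t : ℝ) (y : KbB v) (w : ℝ), (fun (_ : ℝ) (_ : KbB v) (w : ℝ) => B * w) t y w = c0 + ct * t + cy ⬝ᵥ y + cw * w :=
    ⟨0, 0, 0, B, fun t y w => by simp⟩
  have h1 : ∃ (c0 ct : ℝ) (cy : KbB v) (cw : ℝ), ∀ (t : ℝ) (y : KbB v) (w : ℝ), (fun (_ : ℝ) (_ : KbB v) (_ : ℝ) => (1 : ℝ)) t y w = c0 + ct * t + cy ⬝ᵥ y + cw * w :=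
    ⟨1, 0, 0, 0, fun t y w => by simp⟩
  have q1' := k3e3_smul_quad (k3e3_rq_mul h1 h1) Pq.p0.c0
  have q2 := k3e3_rq_sum Finset.univ (fun i => fun t y w => Pq.p0.c1 i * (k3e3Z fr t1 q1 t y i * 1))
    (fun i _ => k3e3_smul_quad (k3e3_rq_mul (A := fun t y _ => k3e3Z fr t1 q1 t y i) (hz i) h1) (Pq.p0.c1 i))
  have q3 := k3e3_rq_sum Finset.univ (fun i => fun t y w => ∑ j, Pq.p0.c2 i j * (k3e3Z fr t1 q1 t y i * k3e3Z fr t1 q1 t y j))
    (fun i _ => k3e3_rq_sum Finset.univ (fun j => fun t y w => Pq.p0.c2 i j * (k3e3Z fr t1 q1 t y i * k3e3Z fr t1 q1 t y j))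
      (fun j _ => k3e3_smul_quad (k3e3_rq_mul (A := fun t y _ => k3e3Z fr t1 q1 t y i) (A' := fun t y _ => k3e3Z fr t1 q1 t y j) (hz i) (hz j)) (Pq.p0.c2 i j)))
  have q4 := k3e3_smul_quad (k3e3_rq_mul hw h1) Pq.a0
  have q5 := k3e3_rq_sum Finset.univ (fun i => fun t y w => Pq.a1 i * (k3e3Z fr t1 q1 t y i * (B * w)))
    (fun i _ => k3e3_smul_quad (k3e3_rq_mul (A := fun t y _ => k3e3Z fr t1 q1 t y i) (hz i) hw) (Pq.a1 i))
  have q6 := k3e3_smul_quad (k3e3_rq_mul hw hw) (Pq.c / 2)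
  obtain ⟨Q, hQ⟩ := k3e3_rq_add (k3e3_rq_add (k3e3_rq_add (k3e3_rq_add (k3e3_rq_add q1' q2) q3) q4) q5) q6
  refine ⟨Q, fun t y w => ?_⟩
  rw [← hQ]
  unfold k3e3Ret K3bEq.evR K3bQd.evR
  simp only [add_mul, Finset.sum_mul, mul_one, mul_assoc]
  ring

/-- **LEAF L-252-S3e3-RET2** (this and the next four statements): `unfold`, `ring`. -/
theorem k3e3_ret_dw (Pq : K3bEq (v.j + 1)) (fr : KbChart v) (t1 q1 B t : ℝ) (y : KbB v) (w : ℝ) :
    kbDw (k3e3Ret Pq fr t1 q1 B) t y w = B * Pq.dwR (k3e3Z fr t1 q1 t y) (B * w) := by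
  unfold kbDw k3e3Ret K3bEq.evR K3bEq.dwR
  ring

theorem k3e3_ret_dww (Pq : K3bEq (v.j + 1)) (fr : KbChart v) (t1 q1 B t : ℝ) (y : KbB v) (w : ℝ) : kbDww (k3e3Ret Pq fr t1 q1 B) t y w = B ^ 2 * Pq.c := by
  unfold kbDww k3e3Ret K3bEq.evR
  ring

theorem k3e3_ret_adm (Pq : K3bEq (v.j + 1)) (fr : KbChart v) (t1 q1 B : ℝ) (h : v = KbVer.one → B = 1 ∧ Pq.a0 = 1 ∧ (∀ i, Pq.a1 i = 0) ∧ Pq.c = 0) :
    KbAdm (k3e3Ret Pq fr t1 q1 B) := by
  refine ⟨k3e3_ret_quad Pq fr t1 q1 B, fun hv t y w => ?_⟩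
  obtain ⟨h1, h2, h3, h4⟩ := h hv
  unfold k3e3Ret K3bEq.evR
  simp only [h1, h2, h3, h4]
  simp
  ring

/-- the real form of `K3bEq.dsc_ev` -/
theorem k3e3_dsc_evR {n : ℕ} (Pq : K3bEq n) (x : Fin n → ℝ) (w : ℝ) : Pq.dsc.evR x = Pq.dwR x w ^ 2 - 2 * Pq.c * Pq.evR x w := by
  have h1 : Pq.dsc.evR x = (Pq.a0 + ∑ i, Pq.a1 i * x i) ^ 2 - 2 * Pq.c * Pq.p0.evR x := by
    unfold K3bEq.dsc K3bQd.evR
    simp only
    have e : (∑ i, Pq.a1 i * x i) ^ 2 = ∑ i, ∑ j, Pq.a1 i * Pq.a1 j * x i * x j := by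
      rw [sq, Finset.sum_mul_sum]
      refine Finset.sum_congr rfl fun i _ => Finset.sum_congr rfl fun j _ => by ring
    have e2 : ∑ i, ∑ j, (Pq.a1 i * Pq.a1 j - 2 * Pq.c * Pq.p0.c2 i j) * x i * x j
        = ∑ i, ∑ j, Pq.a1 i * Pq.a1 j * x i * x j - 2 * Pq.c * ∑ i, ∑ j, Pq.p0.c2 i j * x i * x j := by
      rw [Finset.mul_sum, ← Finset.sum_sub_distrib]
      refine Finset.sum_congr rfl fun i _ => ?_
      rw [Finset.mul_sum, ← Finset.sum_sub_distrib]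
      refine Finset.sum_congr rfl fun j _ => by ring
    have e3 : ∑ i, (2 * Pq.a0 * Pq.a1 i - 2 * Pq.c * Pq.p0.c1 i) * x i
        = 2 * Pq.a0 * ∑ i, Pq.a1 i * x i - 2 * Pq.c * ∑ i, Pq.p0.c1 i * x i := by
      rw [Finset.mul_sum, Finset.mul_sum, ← Finset.sum_sub_distrib]
      refine Finset.sum_congr rfl fun i _ => by ring
    rw [e2, e3, ← e]
    ring
  rw [h1]
  unfold K3bEq.dwR K3bEq.evR
  ring

/-- the discriminant of `Defs` (`X.dsc`) for a returned equation -/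
theorem k3e3_ret_dsc (Pq : K3bEq (v.j + 1)) (fr : KbChart v) (t1 q1 B t : ℝ) (y : KbB v) (w : ℝ) :
    kbDw (k3e3Ret Pq fr t1 q1 B) t y w ^ 2 - 2 * kbDww (k3e3Ret Pq fr t1 q1 B) 0 0 0 * k3e3Ret Pq fr t1 q1 B t y w = B ^ 2 * Pq.dsc.evR (k3e3Z fr t1 q1 t y) := by
  rw [k3e3_ret_dw, k3e3_ret_dww, k3e3_dsc_evR Pq _ (B * w)]
  unfold k3e3Ret
  ring

end

end Claimed.Agent.R252
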