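import Claimed.Agent.R252.S2s.Api
import Claimed.Agent.R252.S3b.Defs

/-!
# ROW 252 (S0492), unit S3e3 (03-comparison.tex l.1561-1776, L3.5 terminal time extension, part 3), file 1: DEFINITIONS      (sub-architect helper299, chief helper70)   -- KEEP
No sorry.  Prefix `k3e3_` / `K3e3`.  ONE SCALE, explicit slacks, no sequences.   TWO LEVELS.

## Level 1: `K3e3Plan P` (= `K3bPlan` of the design note s3b_design.md, EXIT 3), 03 l.1654-1776
A plan is a PRELIMINARY ATLAS `Y0 : KbSys P` on the longer blocks (labels `c₀ = (γ, I, D, b)`, assignments, selections, moving frames, and as test `T` the representative equation `\hat P_{D,b}` IN THE ORIGINAL COORDINATES `(t, y, w)`;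
use `k3e3Ret` to come back from a `K3bEq`), a frozen source time `ts c` in the block of every label, and numbers `K` (subpower), `U = N^{C₂ e}`, `U3 = N^{C₃ e}`, `δ = N^{-L}`, `m`.
`X.Ok` : `Y0.WF`, frames of size `≤ K q₁` containing the traces, mass `≥ 1/K`, and only the WEAK bounds `sup_I |\hat P| ≤ U δ`, `sup_I |\hat P_w| ≤ U B` (3.23), `|\hat D (t₀)| ≥ B² / U3` (3.24) on the assigned trajectories:
no derivative floor, no curvature bound.   NO rescaling `w ↦ B w` : all bounds carry the derivative unit `B = P.B γ` explicitly.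
The normalisation (all explicit definitions):
* LOW curvature `|\hat P_ww| δ Tt ≤ B²`, `Tt = 16 U U3²` : labels `(c, k)`, `ρ = 2^(k - m)`, `B ρ ≤ M_∂ < 2 B ρ` (`M_∂` = maximum of `|\hat P_w|` at the two end points of the block: the derivative is affine in `t`), test `\hat P / ρ`,
  incidences with `|∂_w| ≥ κ B`, `κ = 1/(16 K)`;  thickness `aL = 4 U U3 δ`        (`X.sysL`);
* HIGH curvature: label `c`, test `B \hat P_w / \hat P_ww = B (w - F_ctr)`;  thickness `aH = 16 U² U3² δ`        (`X.sysH`).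
Labels which are not used carry the harmless test `B w` and empty assignments, so the label types are `C × Fin (2 m)` and `C` (no subtypes).
EXIT: `k3e3_build` (file `Contract`).

## Level 2: `K3e3Tab Y` (03 l.1561-1652: fixing the source, assigning anchor bins), a way to PRODUCE a plan from the old system `Y`
* `L`, `wd`, `iv`, `ch`, `ts` as above;
* `G A c`   the trajectories of the OLD SOURCE label `A` whose continued source branch has the frame and the anchor bin of `c` (any measurable set, disjoint for different `c`; put here all conditions at the source time; reg_40.md R5: geometric conditions);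
* `cmp A'`  the compatibility list of an old terminal label.
* `X.src c`  = `⋃_A  A_A ∩ G A c` over the old labels `A` of the world of `c` whose interval contains the source time (source labels are MERGED);
* `X.asg c`  = `src c` ∩ whole-block spatial bound ∩ (3.23) ∩ (3.24): the bounds are CONDITIONS of the assignment;
* `X.sl c`   = later incidences `(l, t)`, `l ∈ asg c`, `t ∈ I`, selected by an old label `A'` with `c ∈ cmp A'`.
`X.plan`, `k3e3_tab_ok`, `k3e3_tab_known`, EXIT `k3e3_exit`.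
-/

set_option autoImplicit false

namespace Claimed.Agent.R252

open MeasureTheory
open scoped ENNReal BigOperators

noncomputable section

variable {v : KbVer}

/-! ## Level 1 -/

/-- **a plan** (data only) -/
structure K3e3Plan (P : KbPb v) where
  /-- the preliminary atlas -/
  Y0 : KbSys P
  /-- frozen source time of a label -/
  ts : Y0.C → ℝ
  /-- subpower slack -/
  K : ℝ
  /-- `N^{C₂ e}` -/
  U : ℝ
  /-- `N^{C₃ e}` -/
  U3 : ℝ
  /-- old thickness -/
  δ : ℝ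
  /-- `2 m` dyadic sizes -/
  m : ℕ

namespace K3e3Plan

variable {P : KbPb v} (X : K3e3Plan P)

/-- right end point of the block (the left one is `X.Y0.tc c`) -/
def tr (c : X.Y0.C) : ℝ := ((X.Y0.iv c : ℝ) + 1) * kbQ X.Y0.n

/-- the source time of a label -/
def t0 (c : X.Y0.C) : ℝ := X.ts c

/-- the derivative unit -/
def B (c : X.Y0.C) : ℝ := P.B (X.Y0.wd c)

/-- `\hat P` along a trajectory -/
def val (c : X.Y0.C) (l : P.Lam) (t : ℝ) : ℝ := kbX (X.Y0.ch c).T (P.co (X.Y0.wd c) l) t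

/-- `\hat P_w` along a trajectory -/
def der (c : X.Y0.C) (l : P.Lam) (t : ℝ) : ℝ := kbX (kbDw (X.Y0.ch c).T) (P.co (X.Y0.wd c) l) t

/-- `\hat P_ww` -/
def cur (c : X.Y0.C) : ℝ := kbDww (X.Y0.ch c).T 0 0 0

/-- the discriminant at the source -/
def dsc (c : X.Y0.C) (l : P.Lam) : ℝ := X.der c l (X.t0 c) ^ 2 - 2 * X.cur c * X.val c l (X.t0 c)

/-- the curvature threshold -/
def Tt : ℝ := 16 * X.U * X.U3 ^ 2

/-- low curvature -/
def low (c : X.Y0.C) : Prop := |X.cur c| * (X.δ * X.Tt) ≤ X.B c ^ 2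

/-- the dyadic sizes `2^(k - m)` -/
def rho (k : Fin (2 * X.m)) : ℝ := (2 : ℝ) ^ (((k : ℕ) : ℤ) - (X.m : ℤ))

/-- the block maximum of `|\hat P_w|` (the derivative is affine along a trajectory) -/
def Mx (c : X.Y0.C) (l : P.Lam) : ℝ := max |X.der c l (X.Y0.tc c)| |X.der c l (X.tr c)|

/-- the refined labels which are used -/
def good (ck : X.Y0.C × Fin (2 * X.m)) : Prop := X.low ck.1 ∧ 1 ≤ 4 * X.U3 * X.rho ck.2 ∧ (v = KbVer.one → X.rho ck.2 = 1)

/-- refined assignment -/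
def asgL (ck : X.Y0.C × Fin (2 * X.m)) : Set P.Lam :=
  {l | l ∈ X.Y0.A ck.1 ∧ X.good ck ∧ X.B ck.1 * X.rho ck.2 ≤ X.Mx ck.1 l ∧ X.Mx ck.1 l < 2 * (X.B ck.1 * X.rho ck.2)}

open Classical in
/-- normalised test, low curvature -/
def tstL (ck : X.Y0.C × Fin (2 * X.m)) : KbTest v := if X.good ck then fun t y w => (X.Y0.ch ck.1).T t y w / X.rho ck.2 else fun _ _ w => X.B ck.1 * w

/-- the derivative floor -/
def kap : ℝ := 1 / (16 * X.K)

/-- refined selection -/
def slL (ck : X.Y0.C × Fin (2 * X.m)) : Set (P.Lam × ℝ) :=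
  {x | x ∈ X.Y0.S ck.1 ∧ x.1 ∈ X.asgL ck ∧ X.kap * X.B ck.1 ≤ |kbX (kbDw (X.tstL ck)) (P.co (X.Y0.wd ck.1) x.1) x.2|}

/-- the omitted incidences -/
def lostL (ck : X.Y0.C × Fin (2 * X.m)) : Set (P.Lam × ℝ) :=
  {x | x.1 ∈ X.asgL ck ∧ x.2 ∈ X.Y0.I ck.1 ∧ |kbX (kbDw (X.tstL ck)) (P.co (X.Y0.wd ck.1) x.1) x.2| < X.kap * X.B ck.1}

/-- **the atlas of the low curvature case** -/
def sysL : KbSys P where
  n := X.Y0.n
  C := X.Y0.C × Fin (2 * X.m)
  fC := inferInstance
  wd := fun ck => X.Y0.wd ck.1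
  iv := fun ck => X.Y0.iv ck.1
  A := X.asgL
  S := X.slL
  ch := fun ck => { X.Y0.ch ck.1 with T := X.tstL ck }

open Classical in
/-- normalised test, high curvature: `B (w - F_ctr)` -/
def tstH (c : X.Y0.C) : KbTest v := if X.low c then fun _ _ w => X.B c * w else fun t y w => X.B c * kbDw (X.Y0.ch c).T t y w / X.cur c

/-- assignment, high curvature -/
def asgH (c : X.Y0.C) : Set P.Lam := {l | l ∈ X.Y0.A c ∧ ¬ X.low c}

/-- selection, high curvature -/
def slH (c : X.Y0.C) : Set (P.Lam × ℝ) := {x | x ∈ X.Y0.S c ∧ ¬ X.low c}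

/-- **the atlas of the high curvature case** -/
def sysH : KbSys P where
  n := X.Y0.n
  C := X.Y0.C
  fC := X.Y0.fC
  wd := X.Y0.wd
  iv := X.Y0.iv
  A := X.asgH
  S := X.slH
  ch := fun c => { X.Y0.ch c with T := X.tstH c }

/-- thickness of the low curvature case -/
def aL : ℝ := X.δ * (4 * X.U * X.U3)

/-- thickness of the high curvature case -/
def aH : ℝ := X.δ * (16 * X.U ^ 2 * X.U3 ^ 2)

/-- **requirements on a plan** -/
structure Ok : Prop where
  K_ge : 1 ≤ X.K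
  U_ge : 1 ≤ X.U
  U3_ge : 1 ≤ X.U3
  δ_pos : 0 < X.δ
  m_U3 : 4 * X.U3 ≤ 2 ^ X.m
  m_U : X.U < 2 ^ X.m
  wf : X.Y0.WF
  ts_mem : ∀ c, X.t0 c ∈ X.Y0.I c
  size : ∀ c, kbMn (X.Y0.ch c).D ≤ X.Y0.q * X.K
  box : ∀ c, ∀ l ∈ X.Y0.A c, ∀ t ∈ X.Y0.I c, ‖(X.Y0.ch c).Di.mulVec (kbY (P.co (X.Y0.wd c) l) t - (X.Y0.ch c).yc t)‖ ≤ X.K
  val : ∀ c, ∀ l ∈ X.Y0.A c, ∀ t ∈ X.Y0.I c, |X.val c l t| ≤ X.U * X.δ
  der : ∀ c, ∀ l ∈ X.Y0.A c, ∀ t ∈ X.Y0.I c, |X.der c l t| ≤ X.U * X.B c
  dsc : ∀ c, ∀ l ∈ X.Y0.A c, X.B c ^ 2 ≤ X.U3 * |X.dsc c l|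
  big : X.Y0.Big X.K

end K3e3Plan

/-! ## Level 2 -/

/-- **the frozen table** (data only) -/
structure K3e3Tab {P : KbPb v} (Y : KbSys P) where
  K : ℝ
  U : ℝ
  U3 : ℝ
  δ : ℝ
  m : ℕ
  /-- level of the longer blocks -/
  n1 : ℕ
  /-- preliminary labels -/
  L : Type
  fL : Fintype L
  wd : L → P.W
  iv : L → ℕ
  /-- frozen source times -/
  ts : P.W → ℕ → ℝ
  /-- source conditions -/
  G : Y.C → L → Set P.Lam
  /-- frame and representative equation -/
  ch : L → KbChart v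
  /-- compatibility lists -/
  cmp : Y.C → Finset L

attribute [instance] K3e3Tab.fL

namespace K3e3Tab

variable {P : KbPb v} {Y : KbSys P} (X : K3e3Tab Y)

/-- the block of a label -/
def I (c : X.L) : Set ℝ := kbI X.n1 (X.iv c)

/-- the source time of a label -/
def t0 (c : X.L) : ℝ := X.ts (X.wd c) (X.iv c)

/-- the derivative unit -/
def B (c : X.L) : ℝ := P.B (X.wd c)

/-- `\hat P` along a trajectory -/
def val (c : X.L) (l : P.Lam) (t : ℝ) : ℝ := kbX (X.ch c).T (P.co (X.wd c) l) t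

/-- `\hat P_w` along a trajectory -/
def der (c : X.L) (l : P.Lam) (t : ℝ) : ℝ := kbX (kbDw (X.ch c).T) (P.co (X.wd c) l) t

/-- the discriminant at the source -/
def dsc (c : X.L) (l : P.Lam) : ℝ := X.der c l (X.t0 c) ^ 2 - 2 * kbDww (X.ch c).T 0 0 0 * X.val c l (X.t0 c)

/-- trajectories with the source label of `c` -/
def src (c : X.L) : Set P.Lam := {l | ∃ A, Y.wd A = X.wd c ∧ X.t0 c ∈ Y.I A ∧ l ∈ Y.A A ∧ l ∈ X.G A c}

/-- **the preliminary assignment** -/
def asg (c : X.L) : Set P.Lam :=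
  {l | l ∈ X.src c ∧ (∀ t ∈ X.I c, ‖(X.ch c).Di.mulVec (kbY (P.co (X.wd c) l) t - (X.ch c).yc t)‖ ≤ X.K) ∧ (∀ t ∈ X.I c, |X.val c l t| ≤ X.U * X.δ) ∧
    (∀ t ∈ X.I c, |X.der c l t| ≤ X.U * X.B c) ∧ X.B c ^ 2 ≤ X.U3 * |X.dsc c l|}

/-- **the preliminary selection** -/
def sl (c : X.L) : Set (P.Lam × ℝ) := {x | x.1 ∈ X.asg c ∧ x.2 ∈ X.I c ∧ ∃ A', Y.wd A' = X.wd c ∧ x ∈ Y.S A' ∧ c ∈ X.cmp A'}

/-- **the preliminary atlas** -/
def sys0 : KbSys P where
  n := X.n1
  C := X.L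
  fC := X.fL
  wd := X.wd
  iv := X.iv
  A := X.asg
  S := X.sl
  ch := X.ch

/-- **the plan of a table** -/
def plan : K3e3Plan P where
  Y0 := X.sys0
  ts := X.t0
  K := X.K
  U := X.U
  U3 := X.U3
  δ := X.δ
  m := X.m

/-- **requirements on the frozen table** -/
structure Ok : Prop where
  K_ge : 1 ≤ X.K
  U_ge : 1 ≤ X.U
  U3_ge : 1 ≤ X.U3
  δ_pos : 0 < X.δ
  m_U3 : 4 * X.U3 ≤ 2 ^ X.m
  m_U : X.U < 2 ^ X.m
  iv_lt : ∀ c, X.iv c < 2 ^ X.n1
  ts_mem : ∀ c, X.t0 c ∈ X.I c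
  G_meas : ∀ A c, MeasurableSet (X.G A c)
  G_disj : ∀ A c c', c ≠ c' → X.wd c = X.wd c' → X.iv c = X.iv c' → Disjoint (X.G A c) (X.G A c')
  inv : ∀ c, (X.ch c).D * (X.ch c).Di = 1
  adm : ∀ c, KbAdm (X.ch c).T
  size : ∀ c, kbMn (X.ch c).D ≤ kbQ X.n1 * X.K
  cmp_card : ∀ A, ((X.cmp A).card : ℝ) ≤ X.K
  mass : 1 ≤ ENNReal.ofReal X.K * X.sys0.mass

end K3e3Tab

/-! ## Return from the coordinates of a frame -/

/-- the coordinates `z = (τ, ξ)` of a frame on the block starting at `t1` : `τ = (t - t1) / q1`, `ξ = Di (y - y_c (t))` -/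
def k3e3Z (fr : KbChart v) (t1 q1 t : ℝ) (y : KbB v) : Fin (v.j + 1) → ℝ := Fin.cons ((t - t1) / q1) (fr.Di.mulVec (y - fr.yc t))

/-- an equation in the coordinates `(z, B w)` of a frame, as a test in the original coordinates -/
def k3e3Ret (Pq : K3bEq (v.j + 1)) (fr : KbChart v) (t1 q1 B : ℝ) : KbTest v := fun t y w => Pq.evR (k3e3Z fr t1 q1 t y) (B * w)

end

end Claimed.Agent.R252
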